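import Vale.Agent.P244.ST.Conf

/-!
# P244-L : basic calculus on `[-1,1]`
-/

open Set Filter Topology
open scoped ContDiff

namespace Vale.Agent.P244.LW
open Vale.Agent.P244.ST

/-- smooth on `[-1,1]` -/
def Sm (u : ℝ → ℝ) : Prop := ContDiffOn ℝ ∞ u (Icc (-1) 1)

/-- `j`-th derivative on `[-1,1]` -/
noncomputable def dn (j : ℕ) (u : ℝ → ℝ) : ℝ → ℝ := dx^[j] u

/-- `|D^i u| ≤ K` on `[-1,1]` for all `i ≤ j` -/
def Bd (j : ℕ) (K : ℝ) (u : ℝ → ℝ) : Prop :=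
  ∀ i ≤ j, ∀ x ∈ Icc (-1 : ℝ) 1, |dn i u x| ≤ K

/-- `L_d u = (1-x²) u'' - d x u'` -/
noncomputable def Ld (d : ℝ) (u : ℝ → ℝ) (x : ℝ) : ℝ :=
  (1 - x ^ 2) * dx (dx u) x - d * x * dx u x

theorem lap_eq (p : ℕ) (u : ℝ → ℝ) : lap p u = Ld ((p : ℝ) + 1) u := rfl

theorem uI : UniqueDiffOn ℝ (Icc (-1 : ℝ) 1) := uniqueDiffOn_Icc (by norm_num)

@[simp] theorem dn_zero (u : ℝ → ℝ) : dn 0 u = u := rfl
theorem dn_one (u : ℝ → ℝ) : dn 1 u = dx u := rfl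
theorem dn_succ (j : ℕ) (u : ℝ → ℝ) : dn (j + 1) u = dn j (dx u) := rfl
theorem dn_succ' (j : ℕ) (u : ℝ → ℝ) : dn (j + 1) u = dx (dn j u) :=
  Function.iterate_succ_apply' _ _ _
theorem dn_add_idx (i j : ℕ) (u : ℝ → ℝ) : dn (i + j) u = dn i (dn j u) :=
  Function.iterate_add_apply _ _ _ _

theorem Sm.dx {u : ℝ → ℝ} (h : Sm u) : Sm (dx u) :=
  ContDiffOn.derivWithin h uI (by simp)

theorem Sm.dn {u : ℝ → ℝ} (h : Sm u) (j : ℕ) : Sm (dn j u) := by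
  induction j with
  | zero => exact h
  | succ j ih => rw [dn_succ']; exact ih.dx

theorem Sm.cont {u : ℝ → ℝ} (h : Sm u) : ContinuousOn u (Icc (-1) 1) := h.continuousOn

theorem Sm.diffOn {u : ℝ → ℝ} (h : Sm u) : DifferentiableOn ℝ u (Icc (-1) 1) :=
  h.differentiableOn (by simp)

theorem Sm.hd {u : ℝ → ℝ} (h : Sm u) {x : ℝ} (hx : x ∈ Icc (-1 : ℝ) 1) :
    HasDerivWithinAt u (ST.dx u x) (Icc (-1) 1) x :=
  (h.diffOn x hx).hasDerivWithinAt

theorem dx_of_hd {u : ℝ → ℝ} {u' x : ℝ} (hx : x ∈ Icc (-1 : ℝ) 1)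
    (h : HasDerivWithinAt u u' (Icc (-1) 1) x) : ST.dx u x = u' :=
  h.derivWithin (uI x hx)

theorem dx_congr {u v : ℝ → ℝ} (h : ∀ x ∈ Icc (-1 : ℝ) 1, u x = v x) {x : ℝ}
    (hx : x ∈ Icc (-1 : ℝ) 1) : dx u x = dx v x :=
  derivWithin_congr (fun y hy => h y hy) (h x hx)

theorem dn_congr {u v : ℝ → ℝ} (h : ∀ x ∈ Icc (-1 : ℝ) 1, u x = v x) (j : ℕ) :
    ∀ x ∈ Icc (-1 : ℝ) 1, dn j u x = dn j v x := by
  induction j with
  | zero => exact h
  | succ j ih => intro x hx; rw [dn_succ', dn_succ']; exact dx_congr ih hx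

theorem Sm.congr {u v : ℝ → ℝ} (hu : Sm u) (h : ∀ x ∈ Icc (-1 : ℝ) 1, v x = u x) : Sm v :=
  ContDiffOn.congr hu h

theorem Ld_congr {d : ℝ} {u v : ℝ → ℝ} (h : ∀ x ∈ Icc (-1 : ℝ) 1, u x = v x) {x : ℝ}
    (hx : x ∈ Icc (-1 : ℝ) 1) : Ld d u x = Ld d v x := by
  unfold Ld
  rw [dx_congr h hx, dx_congr (fun y hy => dx_congr h hy) hx]

/-! ### closure -/

theorem Sm.const (c : ℝ) : Sm (fun _ => c) := contDiffOn_const
theorem Sm.id : Sm (fun x => x) := contDiffOn_id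
theorem Sm.add {u v : ℝ → ℝ} (hu : Sm u) (hv : Sm v) : Sm (fun x => u x + v x) :=
  ContDiffOn.add hu hv
theorem Sm.sub {u v : ℝ → ℝ} (hu : Sm u) (hv : Sm v) : Sm (fun x => u x - v x) :=
  ContDiffOn.sub hu hv
theorem Sm.mul {u v : ℝ → ℝ} (hu : Sm u) (hv : Sm v) : Sm (fun x => u x * v x) :=
  ContDiffOn.mul hu hv
theorem Sm.neg {u : ℝ → ℝ} (hu : Sm u) : Sm (fun x => -u x) := ContDiffOn.neg hu
theorem Sm.cmul {u : ℝ → ℝ} (c : ℝ) (hu : Sm u) : Sm (fun x => c * u x) := (Sm.const c).mul hu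
theorem Sm.pow {u : ℝ → ℝ} (hu : Sm u) (n : ℕ) : Sm (fun x => u x ^ n) := ContDiffOn.pow hu n
theorem Sm.exp {u : ℝ → ℝ} (hu : Sm u) : Sm (fun x => Real.exp (u x)) := ContDiffOn.exp hu
theorem Sm.inv {u : ℝ → ℝ} (hu : Sm u) (h : ∀ x ∈ Icc (-1 : ℝ) 1, u x ≠ 0) :
    Sm (fun x => (u x)⁻¹) := ContDiffOn.inv hu h
theorem Sm.div {u v : ℝ → ℝ} (hu : Sm u) (hv : Sm v) (h : ∀ x ∈ Icc (-1 : ℝ) 1, v x ≠ 0) :
    Sm (fun x => u x / v x) := ContDiffOn.div hu hv h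
theorem Sm.sxx : Sm (fun x => 1 - x ^ 2) := (Sm.const 1).sub (Sm.id.pow 2)

theorem Sm.Ld {u : ℝ → ℝ} (hu : Sm u) (d : ℝ) : Sm (Ld d u) :=
  (Sm.sxx.mul hu.dx.dx).sub (((Sm.const d).mul Sm.id).mul hu.dx)

theorem Sm.cont_of {u : ℝ → ℝ} (hu : Sm u) : ContinuousOn u (Icc (-1) 1) := hu.cont

/-! ### derivative rules on `[-1,1]` -/

section rules
variable {u v : ℝ → ℝ} {x : ℝ}

theorem dx_const (c : ℝ) (x : ℝ) : dx (fun _ => c) x = 0 := by
  unfold ST.dx; simp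

theorem dx_id (hx : x ∈ Icc (-1 : ℝ) 1) : dx (fun y => y) x = 1 :=
  dx_of_hd hx (hasDerivWithinAt_id x _)

theorem dx_add (hu : Sm u) (hv : Sm v) (hx : x ∈ Icc (-1 : ℝ) 1) :
    dx (fun y => u y + v y) x = dx u x + dx v x :=
  dx_of_hd hx ((hu.hd hx).add (hv.hd hx))

theorem dx_sub (hu : Sm u) (hv : Sm v) (hx : x ∈ Icc (-1 : ℝ) 1) :
    dx (fun y => u y - v y) x = dx u x - dx v x :=
  dx_of_hd hx ((hu.hd hx).sub (hv.hd hx))

theorem dx_mul (hu : Sm u) (hv : Sm v) (hx : x ∈ Icc (-1 : ℝ) 1) :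
    dx (fun y => u y * v y) x = dx u x * v x + u x * dx v x :=
  dx_of_hd hx ((hu.hd hx).mul (hv.hd hx))

theorem dx_neg (hu : Sm u) (hx : x ∈ Icc (-1 : ℝ) 1) :
    dx (fun y => -u y) x = -dx u x :=
  dx_of_hd hx (hu.hd hx).neg

theorem dx_cmul (c : ℝ) (hu : Sm u) (hx : x ∈ Icc (-1 : ℝ) 1) :
    dx (fun y => c * u y) x = c * dx u x :=
  dx_of_hd hx ((hu.hd hx).const_mul c)

theorem dx_exp (hu : Sm u) (hx : x ∈ Icc (-1 : ℝ) 1) :
    dx (fun y => Real.exp (u y)) x = Real.exp (u x) * dx u x :=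
  dx_of_hd hx (hu.hd hx).exp

theorem dx_sq (hu : Sm u) (hx : x ∈ Icc (-1 : ℝ) 1) :
    dx (fun y => u y ^ 2) x = 2 * u x * dx u x := by
  have h := dx_mul hu hu hx
  rw [dx_congr (fun y _ => (sq (u y))) hx, h]; ring

theorem dx_sxx (hx : x ∈ Icc (-1 : ℝ) 1) : dx (fun y => 1 - y ^ 2) x = -2 * x := by
  have := dx_sub (Sm.const 1) (Sm.id.pow 2) hx
  rw [this, dx_const, dx_sq Sm.id hx, dx_id hx]; ring

theorem dn_add (hu : Sm u) (hv : Sm v) (j : ℕ) :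
    ∀ x ∈ Icc (-1 : ℝ) 1, dn j (fun y => u y + v y) x = dn j u x + dn j v x := by
  induction j with
  | zero => intro x _; rfl
  | succ j ih =>
    intro x hx
    rw [dn_succ', dn_succ', dn_succ', dx_congr ih hx, dx_add (hu.dn j) (hv.dn j) hx]

theorem dn_sub (hu : Sm u) (hv : Sm v) (j : ℕ) :
    ∀ x ∈ Icc (-1 : ℝ) 1, dn j (fun y => u y - v y) x = dn j u x - dn j v x := by
  induction j with
  | zero => intro x _; rfl
  | succ j ih =>
    intro x hx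
    rw [dn_succ', dn_succ', dn_succ', dx_congr ih hx, dx_sub (hu.dn j) (hv.dn j) hx]

theorem dn_neg (hu : Sm u) (j : ℕ) :
    ∀ x ∈ Icc (-1 : ℝ) 1, dn j (fun y => -u y) x = -dn j u x := by
  induction j with
  | zero => intro x _; rfl
  | succ j ih =>
    intro x hx
    rw [dn_succ', dn_succ', dx_congr ih hx, dx_neg (hu.dn j) hx]

theorem dn_cmul (c : ℝ) (hu : Sm u) (j : ℕ) :
    ∀ x ∈ Icc (-1 : ℝ) 1, dn j (fun y => c * u y) x = c * dn j u x := by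
  induction j with
  | zero => intro x _; rfl
  | succ j ih =>
    intro x hx
    rw [dn_succ', dn_succ', dx_congr ih hx, dx_cmul c (hu.dn j) hx]

/-- Leibniz formula. -/
theorem dn_mul (hu : Sm u) (hv : Sm v) (j : ℕ) :
    ∀ x ∈ Icc (-1 : ℝ) 1, dn j (fun y => u y * v y) x =
      ∑ i ∈ Finset.range (j + 1), (j.choose i : ℝ) * dn i u x * dn (j - i) v x := by
  intro x hx
  have e : ∀ (k : ℕ) (w : ℝ → ℝ), dn k w x = iteratedDerivWithin k w (Icc (-1) 1) x := by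
    intro k w
    rw [iteratedDerivWithin_eq_iterate]; rfl
  rw [e]
  have := iteratedDerivWithin_mul (n := j) hx uI
    ((hu.of_le (by exact_mod_cast le_top) : ContDiffOn ℝ j u _) x hx)
    ((hv.of_le (by exact_mod_cast le_top) : ContDiffOn ℝ j v _) x hx)
  rw [show (fun y => u y * v y) = u * v from rfl, this]
  simp only [e]

end rules

/-- intertwining `D L_d = (L_{d+2} - d) D` -/
theorem dx_Ld {u : ℝ → ℝ} (hu : Sm u) (d : ℝ) {x : ℝ} (hx : x ∈ Icc (-1 : ℝ) 1) :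
    dx (Ld d u) x = Ld (d + 2) (dx u) x - d * dx u x := by
  have h1 : dx (Ld d u) x = dx (fun y => (1 - y ^ 2) * dx (dx u) y - d * (y * dx u y)) x := by
    apply dx_congr _ hx
    intro y _; unfold Ld; ring
  rw [h1, dx_sub (Sm.sxx.mul hu.dx.dx) ((Sm.id.mul hu.dx).cmul d) hx,
    dx_mul Sm.sxx hu.dx.dx hx, dx_cmul d (Sm.id.mul hu.dx) hx, dx_mul Sm.id hu.dx hx,
    dx_sxx hx, dx_id hx]
  unfold Ld; ring

/-! ### maximum points -/

theorem Sm.exists_max {u : ℝ → ℝ} (hu : Sm u) :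
    ∃ x₀ ∈ Icc (-1 : ℝ) 1, ∀ x ∈ Icc (-1 : ℝ) 1, u x ≤ u x₀ := by
  obtain ⟨x₀, h, h'⟩ := isCompact_Icc.exists_isMaxOn (nonempty_Icc.2 (by norm_num)) hu.cont
  exact ⟨x₀, h, fun x hx => h' hx⟩

theorem Sm.exists_bd {u : ℝ → ℝ} (hu : Sm u) :
    ∃ K : ℝ, 0 ≤ K ∧ ∀ x ∈ Icc (-1 : ℝ) 1, |u x| ≤ K := by
  obtain ⟨x₀, h, h'⟩ := isCompact_Icc.exists_isMaxOn (nonempty_Icc.2 (by norm_num)) hu.cont.abs
  exact ⟨|u x₀|, abs_nonneg _, fun x hx => h' hx⟩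

theorem Sm.exists_Bd {u : ℝ → ℝ} (hu : Sm u) (j : ℕ) : ∃ K : ℝ, 0 ≤ K ∧ Bd j K u := by
  induction j with
  | zero =>
    obtain ⟨K, h0, hK⟩ := hu.exists_bd
    exact ⟨K, h0, fun i hi x hx => by rw [Nat.le_zero.1 hi]; exact hK x hx⟩
  | succ j ih =>
    obtain ⟨K, h0, hK⟩ := ih
    obtain ⟨K', h0', hK'⟩ := (hu.dn (j + 1)).exists_bd
    refine ⟨max K K', le_max_of_le_left h0, fun i hi x hx => ?_⟩
    rcases Nat.le_succ_iff.1 hi with h | h
    · exact (hK i h x hx).trans (le_max_left _ _)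
    · rw [h]; exact (hK' x hx).trans (le_max_right _ _)

theorem Bd.mono {j : ℕ} {K K' : ℝ} {u : ℝ → ℝ} (h : Bd j K u) (hK : K ≤ K') : Bd j K' u :=
  fun i hi x hx => (h i hi x hx).trans hK

theorem Bd.le_idx {i j : ℕ} {K : ℝ} {u : ℝ → ℝ} (h : Bd j K u) (hij : i ≤ j) : Bd i K u :=
  fun k hk x hx => h k (hk.trans hij) x hx

theorem Bd.dx {j : ℕ} {K : ℝ} {u : ℝ → ℝ} (h : Bd (j + 1) K u) : Bd j K (dx u) :=
  fun i hi x hx => h (i + 1) (Nat.succ_le_succ hi) x hx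

theorem Bd.nonneg {j : ℕ} {K : ℝ} {u : ℝ → ℝ} (h : Bd j K u) : 0 ≤ K :=
  (abs_nonneg _).trans (h 0 (Nat.zero_le _) 0 ⟨by norm_num, by norm_num⟩)

theorem Bd.congr {j : ℕ} {K : ℝ} {u v : ℝ → ℝ} (h : Bd j K u)
    (huv : ∀ x ∈ Icc (-1 : ℝ) 1, v x = u x) : Bd j K v :=
  fun i hi x hx => by rw [dn_congr huv i x hx]; exact h i hi x hx

/-- At a maximum point: `(1-x²) V' = 0` and `L_d V ≤ 0`. -/
theorem max_pt {V : ℝ → ℝ} (hV : Sm V) {x₀ : ℝ} (hx₀ : x₀ ∈ Icc (-1 : ℝ) 1)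
    (hm : ∀ x ∈ Icc (-1 : ℝ) 1, V x ≤ V x₀) :
    (1 - x₀ ^ 2) * dx V x₀ = 0 ∧ ∀ d : ℝ, 0 ≤ d → Ld d V x₀ ≤ 0 := by
  have hI : Convex ℝ (Icc (-1 : ℝ) 1) := convex_Icc _ _
  rcases eq_or_lt_of_le hx₀.1 with h1 | h1
  · -- left endpoint
    subst h1
    refine ⟨by norm_num, fun d hd => ?_⟩
    have : dx V (-1) ≤ 0 := by
      have h := hV.hd (x := -1) ⟨le_rfl, by norm_num⟩
      have h2 : Tendsto (slope V (-1)) (𝓝[Icc (-1) 1 \ {-1}] (-1)) (𝓝 (dx V (-1))) :=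
        hasDerivWithinAt_iff_tendsto_slope.1 h
      have hne : (𝓝[Icc (-1 : ℝ) 1 \ {-1}] (-1)).NeBot := by
        have : Icc (-1 : ℝ) 1 \ {-1} = Ioc (-1) 1 := by
          ext y; simp only [Set.mem_sdiff, mem_Icc, mem_singleton_iff, mem_Ioc]
          constructor
          · rintro ⟨⟨a, b⟩, c⟩; exact ⟨lt_of_le_of_ne a (Ne.symm c), b⟩
          · rintro ⟨a, b⟩; exact ⟨⟨a.le, b⟩, a.ne'⟩
        rw [this]
        exact left_nhdsWithin_Ioc_neBot (by norm_num)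
      refine le_of_tendsto h2 ?_
      filter_upwards [self_mem_nhdsWithin] with y hy
      rw [slope_def_field]
      have hy1 : -1 < y := lt_of_le_of_ne hy.1.1 (fun h => hy.2 h.symm)
      exact div_nonpos_of_nonpos_of_nonneg (by linarith only [hm, hy, hm y hy.1]) (by linarith only [hy1])
    unfold Ld
    norm_num
    exact mul_nonpos_of_nonneg_of_nonpos hd this
  rcases eq_or_lt_of_le hx₀.2 with h2 | h2
  · subst h2
    refine ⟨by norm_num, fun d hd => ?_⟩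
    have : 0 ≤ dx V 1 := by
      have h := hV.hd (x := 1) ⟨by norm_num, le_rfl⟩
      have h2 : Tendsto (slope V 1) (𝓝[Icc (-1) 1 \ {1}] 1) (𝓝 (dx V 1)) :=
        hasDerivWithinAt_iff_tendsto_slope.1 h
      have hne : (𝓝[Icc (-1 : ℝ) 1 \ {1}] 1).NeBot := by
        have : Icc (-1 : ℝ) 1 \ {1} = Ico (-1) 1 := by
          ext y; simp only [Set.mem_sdiff, mem_Icc, mem_singleton_iff, mem_Ico]
          constructor
          · rintro ⟨⟨a, b⟩, c⟩; exact ⟨a, lt_of_le_of_ne b c⟩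
          · rintro ⟨a, b⟩; exact ⟨⟨a, b.le⟩, b.ne⟩
        rw [this]
        exact right_nhdsWithin_Ico_neBot (by norm_num)
      refine ge_of_tendsto h2 ?_
      filter_upwards [self_mem_nhdsWithin] with y hy
      rw [slope_def_field]
      have hy1 : y < 1 := lt_of_le_of_ne hy.1.2 hy.2
      exact div_nonneg_of_nonpos (by linarith only [hm, hy, hm y hy.1]) (by linarith only [hy1])
    unfold Ld
    norm_num
    exact mul_nonneg hd this
  · -- interior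
    have hnhds : Icc (-1 : ℝ) 1 ∈ 𝓝 x₀ := Icc_mem_nhds h1 h2
    have hloc : IsLocalMax V x₀ := by
      filter_upwards [hnhds] with y hy using hm y hy
    have hd0 : HasDerivAt V (dx V x₀) x₀ := (hV.hd hx₀).hasDerivAt hnhds
    have h0 : dx V x₀ = 0 := hloc.hasDerivAt_eq_zero hd0
    have hd1 : HasDerivAt (dx V) (dx (dx V) x₀) x₀ := (hV.dx.hd hx₀).hasDerivAt hnhds
    have h3 : dx (dx V) x₀ ≤ 0 := by
      by_contra hpos
      push Not at hpos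
      -- second derivative test
      have hev : ∀ᶠ y in 𝓝[>] x₀, 0 < dx V y := by
        have h4 := hasDerivAt_iff_tendsto_slope.1 hd1
        have h5 : ∀ᶠ y in 𝓝[≠] x₀, 0 < slope (dx V) x₀ y := h4.eventually (lt_mem_nhds hpos)
        have h6 : ∀ᶠ y in 𝓝[>] x₀, 0 < slope (dx V) x₀ y :=
          h5.filter_mono (nhdsWithin_mono _ (fun y hy => ne_of_gt hy))
        filter_upwards [h6, self_mem_nhdsWithin] with y hy hy'
        rw [slope_def_field, h0] at hy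
        have h7 : (0 : ℝ) < y - x₀ := sub_pos.2 hy'
        have := (div_pos_iff_of_pos_right h7).1 hy
        linarith only [this]
      obtain ⟨z, hz, hz'⟩ := (mem_nhdsGT_iff_exists_Ioc_subset).1
        (inter_mem hev (Ioo_mem_nhdsGT h2))
      have hz0 : x₀ < z := hz
      obtain ⟨c, hc, hc'⟩ := exists_deriv_eq_slope V hz0 (by
          refine hV.cont.mono (fun y hy => ?_)
          refine ⟨h1.le.trans hy.1, hy.2.trans ?_⟩
          exact (hz' ⟨hz0, le_rfl⟩).2.2.le) (by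
          intro y hy
          have hy1 : y ∈ Ioo (-1 : ℝ) 1 :=
            ⟨h1.trans hy.1, hy.2.trans (hz' ⟨hz0, le_rfl⟩).2.2⟩
          exact ((hV.hd (Ioo_subset_Icc_self hy1)).hasDerivAt
            (Icc_mem_nhds hy1.1 hy1.2)).differentiableAt.differentiableWithinAt)
      have hc1 : c ∈ Ioo (-1 : ℝ) 1 := ⟨h1.trans hc.1, hc.2.trans (hz' ⟨hz0, le_rfl⟩).2.2⟩
      have hc2 : deriv V c = dx V c := ((hV.hd (Ioo_subset_Icc_self hc1)).hasDerivAt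
            (Icc_mem_nhds hc1.1 hc1.2)).deriv
      have hc3 : 0 < dx V c := (hz' ⟨hc.1, hc.2.le⟩).1
      rw [hc2] at hc'
      have hc4 : 0 < (V z - V x₀) / (z - x₀) := hc' ▸ hc3
      have := (div_pos_iff_of_pos_right (sub_pos.2 hz0)).1 hc4
      have hzI : z ∈ Icc (-1 : ℝ) 1 := ⟨h1.le.trans hz0.le, (hz' ⟨hz0, le_rfl⟩).2.2.le⟩
      linarith only [hm, this, hzI, hm z hzI]
    refine ⟨by rw [h0]; ring, fun d hd => ?_⟩
    unfold Ld
    rw [h0]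
    have h8 : 0 ≤ 1 - x₀ ^ 2 := by nlinarith only [h1, h2]
    nlinarith only [h3, h8, mul_nonneg h8 (neg_nonneg.2 h3)]

theorem min_pt {V : ℝ → ℝ} (hV : Sm V) {x₀ : ℝ} (hx₀ : x₀ ∈ Icc (-1 : ℝ) 1)
    (hm : ∀ x ∈ Icc (-1 : ℝ) 1, V x₀ ≤ V x) :
    (1 - x₀ ^ 2) * dx V x₀ = 0 ∧ ∀ d : ℝ, 0 ≤ d → 0 ≤ Ld d V x₀ := by
  obtain ⟨h1, h2⟩ := max_pt hV.neg hx₀ (fun x hx => neg_le_neg (hm x hx))
  rw [dx_neg hV hx₀] at h1
  refine ⟨by linarith only [h1, h1], fun d hd => ?_⟩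
  have h3 := h2 d hd
  have h4 : Ld d (fun y => -V y) x₀ = - Ld d V x₀ := by
    unfold Ld
    rw [dx_neg hV hx₀, dx_congr (fun y hy => dx_neg hV hy) hx₀, dx_neg hV.dx hx₀]
    ring
  linarith only [h3, h4]

theorem Sm.exists_min {u : ℝ → ℝ} (hu : Sm u) :
    ∃ x₀ ∈ Icc (-1 : ℝ) 1, ∀ x ∈ Icc (-1 : ℝ) 1, u x₀ ≤ u x := by
  obtain ⟨x₀, h, h'⟩ := isCompact_Icc.exists_isMinOn (nonempty_Icc.2 (by norm_num)) hu.cont
  exact ⟨x₀, h, fun x hx => h' hx⟩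

/-! ### Taylor bound, limits, antiderivatives -/

theorem lip_of_bd {u : ℝ → ℝ} (hu : Sm u) {K : ℝ}
    (hK : ∀ x ∈ Icc (-1 : ℝ) 1, |dx u x| ≤ K) {x y : ℝ}
    (hx : x ∈ Icc (-1 : ℝ) 1) (hy : y ∈ Icc (-1 : ℝ) 1) : |u y - u x| ≤ K * |y - x| := by
  have := (convex_Icc (-1 : ℝ) 1).norm_image_sub_le_of_norm_hasDerivWithin_le
    (f := u) (f' := dx u) (C := K) (fun z hz => hu.hd hz) (fun z hz => hK z hz) hx hy
  simpa using this

theorem taylor_bd {u : ℝ → ℝ} (hu : Sm u) {K : ℝ}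
    (hK : ∀ x ∈ Icc (-1 : ℝ) 1, |dx (dx u) x| ≤ K) {x y : ℝ}
    (hx : x ∈ Icc (-1 : ℝ) 1) (hy : y ∈ Icc (-1 : ℝ) 1) :
    |u y - u x - (y - x) * dx u x| ≤ K * (y - x) ^ 2 := by
  have hK0 : 0 ≤ K := (abs_nonneg _).trans (hK x hx)
  -- apply the mean value inequality on the segment between x and y
  have hseg : uIcc x y ⊆ Icc (-1 : ℝ) 1 := by
    intro z hz
    rcases le_total x y with h | h
    · rw [uIcc_of_le h] at hz; exact ⟨hx.1.trans hz.1, hz.2.trans hy.2⟩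
    · rw [uIcc_of_ge h] at hz; exact ⟨hy.1.trans hz.1, hz.2.trans hx.2⟩
  have hconv : Convex ℝ (uIcc x y) := convex_uIcc x y
  have h1 : ∀ z ∈ uIcc x y, HasDerivWithinAt (fun z => u z - z * dx u x)
      (dx u z - 1 * dx u x) (uIcc x y) z := by
    intro z hz
    exact ((hu.hd (hseg hz)).mono hseg).sub ((hasDerivWithinAt_id z _).mul_const _)
  have h2 : ∀ z ∈ uIcc x y, ‖dx u z - 1 * dx u x‖ ≤ K * |y - x| := by
    intro z hz
    rw [one_mul, Real.norm_eq_abs]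
    refine (lip_of_bd hu.dx hK hx (hseg hz)).trans ?_
    apply mul_le_mul_of_nonneg_left _ hK0
    rcases le_total x y with h | h
    · rw [uIcc_of_le h] at hz
      rw [abs_of_nonneg (by linarith only [hz, hz.1]), abs_of_nonneg (by linarith only [h])]; linarith only [hz, hz.2]
    · rw [uIcc_of_ge h] at hz
      rw [abs_of_nonpos (by linarith only [hz, hz.2]), abs_of_nonpos (by linarith only [h])]; linarith only [hz, hz.1]
  have h3 := hconv.norm_image_sub_le_of_norm_hasDerivWithin_le h1 h2 left_mem_uIcc right_mem_uIcc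
  rw [Real.norm_eq_abs, Real.norm_eq_abs] at h3
  have e1 : u y - y * dx u x - (u x - x * dx u x) = u y - u x - (y - x) * dx u x := by ring
  rw [e1] at h3
  calc _ ≤ _ := h3
    _ = K * (|y - x| * |y - x|) := by ring
    _ = K * (y - x) ^ 2 := by rw [abs_mul_abs_self]; ring

/-- A function with a quadratic Taylor bound has the given derivative. -/
theorem hd_of_quad {u : ℝ → ℝ} {u' K x : ℝ}
    (h : ∀ y ∈ Icc (-1 : ℝ) 1, |u y - u x - (y - x) * u'| ≤ K * (y - x) ^ 2) :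
    HasDerivWithinAt u u' (Icc (-1) 1) x := by
  rw [hasDerivWithinAt_iff_isLittleO]
  refine Asymptotics.IsBigO.trans_isLittleO (g := fun y => (y - x) ^ 2) ?_ ?_
  · refine Asymptotics.IsBigO.of_bound K ?_
    filter_upwards [self_mem_nhdsWithin] with y hy
    rw [Real.norm_eq_abs, Real.norm_eq_abs, abs_of_nonneg (sq_nonneg (y - x)), smul_eq_mul]
    exact h y hy
  · have : (fun y : ℝ => (y - x) ^ 2) =o[𝓝 x] fun y => y - x := by
      have h1 : (fun y : ℝ => (y - x) ^ 2) = fun y => (y - x) * (y - x) := by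
        ext y; ring
      rw [h1]
      have h2 : (fun y : ℝ => y - x) =o[𝓝 x] fun _ => (1 : ℝ) := by
        rw [Asymptotics.isLittleO_one_iff]
        have : Tendsto (fun y : ℝ => y - x) (𝓝 x) (𝓝 (x - x)) :=
          (continuous_id.sub continuous_const).tendsto x
        simpa using this
      simpa using (Asymptotics.isBigO_refl (fun y : ℝ => y - x) (𝓝 x)).mul_isLittleO h2
    exact this.mono nhdsWithin_le_nhds

/-- smoothness from a chain of derivatives -/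
theorem sm_of_chain {U : ℕ → ℝ → ℝ}
    (h : ∀ j, ∀ x ∈ Icc (-1 : ℝ) 1, HasDerivWithinAt (U j) (U (j + 1) x) (Icc (-1) 1) x) :
    Sm (U 0) ∧ ∀ j, ∀ x ∈ Icc (-1 : ℝ) 1, dn j (U 0) x = U j x := by
  have key : ∀ n : ℕ, ∀ j, ContDiffOn ℝ n (U j) (Icc (-1) 1) := by
    intro n
    induction n with
    | zero =>
      intro j
      exact contDiffOn_zero.2 (fun x hx => (h j x hx).continuousWithinAt)
    | succ n ih =>
      intro j
      rw [show ((n + 1 : ℕ) : WithTop ℕ∞) = (n : WithTop ℕ∞) + 1 by push_cast; rfl,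
        contDiffOn_succ_iff_derivWithin uI]
      refine ⟨fun x hx => (h j x hx).differentiableWithinAt, by simp, ?_⟩
      exact (ih (j + 1)).congr (fun x hx => (h j x hx).derivWithin (uI x hx))
  refine ⟨contDiffOn_infty.2 (fun n => key n 0), ?_⟩
  intro j
  induction j with
  | zero => intro x _; rfl
  | succ j ih =>
    intro x hx
    rw [dn_succ', dx_congr ih hx]
    exact dx_of_hd hx (h j x hx)

/-- LIMIT LEMMA: pointwise limits along any nontrivial filter, with locally uniform bounds. -/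
theorem lim_sm {ι : Type*} {l : Filter ι} [l.NeBot] {u : ι → ℝ → ℝ} (K : ℕ → ℝ)
    (hs : ∀ᶠ n in l, Sm (u n))
    (hK : ∀ j, ∀ᶠ n in l, ∀ x ∈ Icc (-1 : ℝ) 1, |dn j (u n) x| ≤ K j)
    (U : ℕ → ℝ → ℝ)
    (hU : ∀ j, ∀ x ∈ Icc (-1 : ℝ) 1, Tendsto (fun n => dn j (u n) x) l (𝓝 (U j x))) :
    Sm (U 0) ∧ (∀ j, ∀ x ∈ Icc (-1 : ℝ) 1, dn j (U 0) x = U j x) ∧
      ∀ j, ∀ x ∈ Icc (-1 : ℝ) 1, |dn j (U 0) x| ≤ K j := by
  have hd : ∀ j, ∀ x ∈ Icc (-1 : ℝ) 1,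
      HasDerivWithinAt (U j) (U (j + 1) x) (Icc (-1) 1) x := by
    intro j x hx
    apply hd_of_quad (K := K (j + 2))
    intro y hy
    refine le_of_tendsto ((((hU j y hy).sub (hU j x hx)).sub
      ((hU (j + 1) x hx).const_mul (y - x))).abs) ?_
    filter_upwards [hs, hK (j + 2)] with n hn hKn
    have h1 := taylor_bd (hn.dn j) (K := K (j + 2)) (fun z hz => by
      have := hKn z hz
      rwa [dn_succ', dn_succ'] at this) hx hy
    rw [dn_succ']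
    exact h1
  obtain ⟨h1, h2⟩ := sm_of_chain hd
  refine ⟨h1, h2, fun j x hx => ?_⟩
  rw [h2 j x hx]
  exact le_of_tendsto (hU j x hx).abs ((hK j).mono fun n hn => hn x hx)

/-- interpolation -/
theorem interp {u : ℝ → ℝ} (hu : Sm u) {m K δ : ℝ} (hδ : 0 < δ) (hδ1 : δ ≤ 1)
    (hm : ∀ x ∈ Icc (-1 : ℝ) 1, |u x| ≤ m) (hK : ∀ x ∈ Icc (-1 : ℝ) 1, |dx (dx u) x| ≤ K) :
    ∀ x ∈ Icc (-1 : ℝ) 1, |dx u x| ≤ 2 * m / δ + K * δ := by
  intro x hx
  -- choose y = x ± δ in the interval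
  obtain ⟨y, hy, hyx⟩ : ∃ y ∈ Icc (-1 : ℝ) 1, |y - x| = δ := by
    rcases le_total x 0 with h | h
    · exact ⟨x + δ, ⟨by linarith only [hδ, hx, hx.1], by linarith only [hδ1, h]⟩, by
        rw [add_sub_cancel_left, abs_of_pos hδ]⟩
    · exact ⟨x - δ, ⟨by linarith only [hδ1, h], by linarith only [hδ, hx, hx.2]⟩, by
        rw [show x - δ - x = -δ by ring, abs_neg, abs_of_pos hδ]⟩
  have h1 := taylor_bd hu hK hx hy
  have h2 : (y - x) ^ 2 = δ ^ 2 := by rw [← hyx, sq_abs]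
  rw [h2] at h1
  have h3 : |(y - x) * dx u x| ≤ 2 * m + K * δ ^ 2 := by
    have e : (y - x) * dx u x = (u y - u x) - (u y - u x - (y - x) * dx u x) := by ring
    rw [e]
    refine (abs_sub _ _).trans ?_
    have h4 : |u y - u x| ≤ |u y| + |u x| := abs_sub _ _
    linarith only [hm, hx, hy, h1, h4, hm x hx, hm y hy]
  rw [abs_mul, hyx] at h3
  have h5 : |dx u x| ≤ (2 * m + K * δ ^ 2) / δ := by
    rw [le_div_iff₀ hδ]; linarith only [h3]
  refine h5.trans (le_of_eq ?_)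
  field_simp

theorem intOn {v : ℝ → ℝ} (hv : ContinuousOn v (Icc (-1) 1)) {x y : ℝ}
    (hx : x ∈ Icc (-1 : ℝ) 1) (hy : y ∈ Icc (-1 : ℝ) 1) :
    IntervalIntegrable v MeasureTheory.volume x y := by
  apply ContinuousOn.intervalIntegrable
  apply hv.mono
  intro z hz
  rcases le_total x y with h | h
  · rw [uIcc_of_le h] at hz; exact ⟨hx.1.trans hz.1, hz.2.trans hy.2⟩
  · rw [uIcc_of_ge h] at hz; exact ⟨hy.1.trans hz.1, hz.2.trans hx.2⟩

theorem zero_mem_I : (0 : ℝ) ∈ Icc (-1 : ℝ) 1 := ⟨by norm_num, by norm_num⟩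

/-- antiderivative -/
theorem hd_integral {v : ℝ → ℝ} (hv : ContinuousOn v (Icc (-1) 1)) {x : ℝ}
    (hx : x ∈ Icc (-1 : ℝ) 1) :
    HasDerivWithinAt (fun y => ∫ z in (0 : ℝ)..y, v z) (v x) (Icc (-1) 1) x := by
  -- replace v by its continuous extension
  set w : ℝ → ℝ := IccExtend (show (-1 : ℝ) ≤ 1 by norm_num) ((Icc (-1 : ℝ) 1).domRestrict v) with hw
  have hwc : Continuous w := (continuousOn_iff_continuous_domRestrict.1 hv).Icc_extend'
  have hwv : ∀ y ∈ Icc (-1 : ℝ) 1, w y = v y := fun y hy => by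
    rw [hw, IccExtend_of_mem _ _ hy]; rfl
  have h1 : HasDerivAt (fun y => ∫ z in (0 : ℝ)..y, w z) (w x) x :=
    intervalIntegral.integral_hasDerivAt_right (hwc.intervalIntegrable _ _)
      (hwc.stronglyMeasurableAtFilter _ _) hwc.continuousAt
  rw [hwv x hx] at h1
  refine h1.hasDerivWithinAt.congr (fun y hy => ?_) ?_
  · apply intervalIntegral.integral_congr
    intro z hz
    have : z ∈ Icc (-1 : ℝ) 1 := by
      rcases le_total 0 y with h | h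
      · rw [uIcc_of_le h] at hz; exact ⟨by linarith only [hz, hz.1], hz.2.trans hy.2⟩
      · rw [uIcc_of_ge h] at hz; exact ⟨hy.1.trans hz.1, by linarith only [hz, hz.2]⟩
    exact (hwv z this).symm
  · apply intervalIntegral.integral_congr
    intro z hz
    have : z ∈ Icc (-1 : ℝ) 1 := by
      rcases le_total 0 x with h | h
      · rw [uIcc_of_le h] at hz; exact ⟨by linarith only [hz, hz.1], hz.2.trans hx.2⟩
      · rw [uIcc_of_ge h] at hz; exact ⟨hx.1.trans hz.1, by linarith only [hz, hz.2]⟩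
    exact (hwv z this).symm

theorem Sm.integral {v : ℝ → ℝ} (hv : Sm v) : Sm (fun y => ∫ z in (0 : ℝ)..y, v z) := by
  unfold Sm
  rw [contDiffOn_infty_iff_derivWithin uI]
  refine ⟨fun x hx => (hd_integral hv.cont hx).differentiableWithinAt, ?_⟩
  exact ContDiffOn.congr hv (fun x hx => (hd_integral hv.cont hx).derivWithin (uI x hx))

theorem dx_integral {v : ℝ → ℝ} (hv : Sm v) {x : ℝ} (hx : x ∈ Icc (-1 : ℝ) 1) :
    dx (fun y => ∫ z in (0 : ℝ)..y, v z) x = v x :=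
  dx_of_hd hx (hd_integral hv.cont hx)

/-- two smooth functions with the same derivative and the same value at `0` agree -/
theorem eq_of_dx_eq {u v : ℝ → ℝ} (hu : Sm u) (hv : Sm v)
    (h : ∀ x ∈ Icc (-1 : ℝ) 1, dx u x = dx v x) (h0 : u 0 = v 0) :
    ∀ x ∈ Icc (-1 : ℝ) 1, u x = v x := by
  intro x hx
  have h1 : ∀ z ∈ Icc (-1 : ℝ) 1, |dx (fun y => u y - v y) z| ≤ 0 := by
    intro z hz
    rw [dx_sub hu hv hz, h z hz, sub_self, abs_zero]
  have h2 := lip_of_bd (hu.sub hv) h1 zero_mem_I hx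
  rw [zero_mul] at h2
  have h3 := abs_eq_zero.1 (le_antisymm h2 (abs_nonneg _))
  linarith only [h0, h3]

theorem Sm.Jd {w f : ℝ → ℝ} (p : ℕ) (hw : Sm w) (hf : Sm f) : Sm (ST.Jd p w f) :=
  ((hw.cmul (-2)).exp).mul (((hw.dx.pow 2).cmul ((p : ℝ) - 1)).add ((hf.dx.pow 2).cmul (p : ℝ)))

theorem Sm.Jf {w f : ℝ → ℝ} (p : ℕ) (hw : Sm w) (hf : Sm f) : Sm (ST.Jf p w f) :=
  (hw.Jd p hf).integral

theorem dx_Jf {w f : ℝ → ℝ} (p : ℕ) (hw : Sm w) (hf : Sm f) {x : ℝ}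
    (hx : x ∈ Icc (-1 : ℝ) 1) : dx (ST.Jf p w f) x = ST.Jd p w f x :=
  dx_integral (hw.Jd p hf) hx

theorem Sm.rhsW {w f : ℝ → ℝ} (p : ℕ) (hw : Sm w) (hf : Sm f) : Sm (ST.rhsW p w f) :=
  (((hw.cmul (-2)).exp).mul ((hw.Ld ((p : ℝ) + 1)).sub (Sm.const (p : ℝ)))).add
    ((Sm.id.sub (Sm.sxx.mul hw.dx)).mul (hw.Jf p hf))

theorem Sm.rhsF {w f : ℝ → ℝ} (p : ℕ) (hw : Sm w) (hf : Sm f) : Sm (ST.rhsF p w f) :=
  ((((hw.cmul (-2)).exp).mul (hf.Ld ((p : ℝ) + 1))).sub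
    (((hf.cmul (-2)).exp).cmul ((p : ℝ) - 1))).sub ((Sm.sxx.mul hf.dx).mul (hw.Jf p hf))

end Vale.Agent.P244.LW
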