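import Vale.Agent.P244.ST.Conf

/-!
# P244-L : calculus on `[-1,1]` with `dx`
-/

open Set
open scoped ContDiff

namespace Vale.Agent.P244.L

open Vale.Agent.P244.ST

/-- The interval `[-1,1]`. -/
abbrev I : Set ℝ := Icc (-1 : ℝ) 1

/-- Smooth functions on `[-1,1]`. -/
def Sm (h : ℝ → ℝ) : Prop := ContDiffOn ℝ ∞ h I

theorem uI : UniqueDiffOn ℝ I := uniqueDiffOn_Icc (by norm_num)

theorem Sm.hasDeriv {h : ℝ → ℝ} (hh : Sm h) {x : ℝ} (hx : x ∈ I) :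
    HasDerivWithinAt h (dx h x) I x :=
  ((hh.differentiableOn (by simp)) x hx).hasDerivWithinAt

theorem Sm.cont {h : ℝ → ℝ} (hh : Sm h) : ContinuousOn h I := hh.continuousOn

theorem Sm.dx {h : ℝ → ℝ} (hh : Sm h) : Sm (dx h) :=
  hh.derivWithin uI (by simp)

theorem dx_eq {h : ℝ → ℝ} {x d : ℝ} (hx : x ∈ I) (hd : HasDerivWithinAt h d I x) :
    dx h x = d := hd.derivWithin (uI x hx)

theorem dx_congr {h k : ℝ → ℝ} (e : ∀ x ∈ I, h x = k x) {x : ℝ} (hx : x ∈ I) :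
    dx h x = dx k x := derivWithin_congr e (e x hx)

theorem Sm.congr {h k : ℝ → ℝ} (hh : Sm h) (e : ∀ x ∈ I, k x = h x) : Sm k :=
  ContDiffOn.congr hh e

theorem Sm.const (c : ℝ) : Sm (fun _ => c) := contDiffOn_const
theorem Sm.id : Sm (fun x => x) := contDiffOn_id
theorem Sm.add {h k : ℝ → ℝ} (hh : Sm h) (hk : Sm k) : Sm (fun x => h x + k x) :=
  ContDiffOn.add hh hk
theorem Sm.sub {h k : ℝ → ℝ} (hh : Sm h) (hk : Sm k) : Sm (fun x => h x - k x) :=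
  ContDiffOn.sub hh hk
theorem Sm.mul {h k : ℝ → ℝ} (hh : Sm h) (hk : Sm k) : Sm (fun x => h x * k x) :=
  ContDiffOn.mul hh hk
theorem Sm.neg {h : ℝ → ℝ} (hh : Sm h) : Sm (fun x => - h x) := ContDiffOn.neg hh
theorem Sm.pow {h : ℝ → ℝ} (hh : Sm h) (n : ℕ) : Sm (fun x => h x ^ n) := ContDiffOn.pow hh n
theorem Sm.exp {h : ℝ → ℝ} (hh : Sm h) : Sm (fun x => Real.exp (h x)) := ContDiffOn.exp hh

theorem dx_const (c : ℝ) {x : ℝ} (hx : x ∈ I) : dx (fun _ => c) x = 0 :=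
  dx_eq hx (hasDerivWithinAt_const _ _ _)
theorem dx_id {x : ℝ} (hx : x ∈ I) : dx (fun x => x) x = 1 :=
  dx_eq hx (hasDerivWithinAt_id _ _)
theorem dx_add {h k : ℝ → ℝ} (hh : Sm h) (hk : Sm k) {x : ℝ} (hx : x ∈ I) :
    dx (fun x => h x + k x) x = dx h x + dx k x :=
  dx_eq hx ((hh.hasDeriv hx).add (hk.hasDeriv hx))
theorem dx_sub {h k : ℝ → ℝ} (hh : Sm h) (hk : Sm k) {x : ℝ} (hx : x ∈ I) :
    dx (fun x => h x - k x) x = dx h x - dx k x :=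
  dx_eq hx ((hh.hasDeriv hx).sub (hk.hasDeriv hx))
theorem dx_neg {h : ℝ → ℝ} (hh : Sm h) {x : ℝ} (hx : x ∈ I) :
    dx (fun x => - h x) x = - dx h x :=
  dx_eq hx (hh.hasDeriv hx).neg
theorem dx_mul {h k : ℝ → ℝ} (hh : Sm h) (hk : Sm k) {x : ℝ} (hx : x ∈ I) :
    dx (fun x => h x * k x) x = dx h x * k x + h x * dx k x :=
  dx_eq hx ((hh.hasDeriv hx).mul (hk.hasDeriv hx))
theorem dx_const_mul {h : ℝ → ℝ} (hh : Sm h) (c : ℝ) {x : ℝ} (hx : x ∈ I) :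
    dx (fun x => c * h x) x = c * dx h x :=
  dx_eq hx ((hh.hasDeriv hx).const_mul c)
theorem dx_exp {h : ℝ → ℝ} (hh : Sm h) {x : ℝ} (hx : x ∈ I) :
    dx (fun x => Real.exp (h x)) x = Real.exp (h x) * dx h x :=
  dx_eq hx (hh.hasDeriv hx).exp

/-- The operator `(1-x²)h'' - N x h'`. -/
noncomputable def Lp (N : ℝ) (h : ℝ → ℝ) (x : ℝ) : ℝ :=
  (1 - x ^ 2) * dx (dx h) x - N * x * dx h x

theorem lap_eq (p : ℕ) (h : ℝ → ℝ) (x : ℝ) : lap p h x = Lp ((p : ℝ) + 1) h x := rfl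

theorem Sm.Lp {h : ℝ → ℝ} (hh : Sm h) (N : ℝ) : Sm (Lp N h) := by
  unfold L.Lp
  exact ((((Sm.const 1).sub (Sm.id.pow 2)).mul hh.dx.dx).sub
    (((Sm.const N).mul Sm.id).mul hh.dx))

theorem Sm.lap {h : ℝ → ℝ} (hh : Sm h) (p : ℕ) : Sm (lap p h) := hh.Lp _

theorem dx_Lp {h : ℝ → ℝ} (hh : Sm h) (N : ℝ) {x : ℝ} (hx : x ∈ I) :
    dx (Lp N h) x = Lp (N + 2) (dx h) x - N * dx h x := by
  have h1 := (hh.dx.dx.hasDeriv hx)
  have h2 := (hh.dx.hasDeriv hx)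
  have h3 : HasDerivWithinAt (fun y : ℝ => 1 - y ^ 2) (-(2 * x)) I x := by
    have := ((hasDerivWithinAt_id x I).pow 2).const_sub 1
    simpa using this
  have h4 : HasDerivWithinAt (fun y : ℝ => N * y) N I x := by
    simpa using (hasDerivWithinAt_id x I).const_mul N
  have := (h3.mul h1).sub (h4.mul h2)
  rw [dx_eq (h := Lp N h) hx this]
  unfold Lp
  ring

theorem Lp_add {h k : ℝ → ℝ} (hh : Sm h) (hk : Sm k) (N : ℝ) {x : ℝ} (hx : x ∈ I) :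
    Lp N (fun x => h x + k x) x = Lp N h x + Lp N k x := by
  unfold Lp
  rw [dx_congr (h := dx fun x => h x + k x) (k := fun x => dx h x + dx k x)
    (fun y hy => dx_add hh hk hy) hx, dx_add hh.dx hk.dx hx, dx_add hh hk hx]
  ring

theorem Lp_sub {h k : ℝ → ℝ} (hh : Sm h) (hk : Sm k) (N : ℝ) {x : ℝ} (hx : x ∈ I) :
    Lp N (fun x => h x - k x) x = Lp N h x - Lp N k x := by
  unfold Lp
  rw [dx_congr (h := dx fun x => h x - k x) (k := fun x => dx h x - dx k x)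
    (fun y hy => dx_sub hh hk hy) hx, dx_sub hh.dx hk.dx hx, dx_sub hh hk hx]
  ring

theorem Lp_neg {h : ℝ → ℝ} (hh : Sm h) (N : ℝ) {x : ℝ} (hx : x ∈ I) :
    Lp N (fun x => - h x) x = - Lp N h x := by
  unfold Lp
  rw [dx_congr (h := dx fun x => - h x) (k := fun x => - dx h x)
    (fun y hy => dx_neg hh hy) hx, dx_neg hh.dx hx, dx_neg hh hx]
  ring

theorem Lp_const_mul {h : ℝ → ℝ} (hh : Sm h) (c N : ℝ) {x : ℝ} (hx : x ∈ I) :
    Lp N (fun x => c * h x) x = c * Lp N h x := by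
  unfold Lp
  rw [dx_congr (h := dx fun x => c * h x) (k := fun x => c * dx h x)
    (fun y hy => dx_const_mul hh c hy) hx, dx_const_mul hh.dx c hx, dx_const_mul hh c hx]
  ring

/-- `L_N(h²) = 2 h L_N h + 2 (1-x²) h'²`. -/
theorem Lp_sq {h : ℝ → ℝ} (hh : Sm h) (N : ℝ) {x : ℝ} (hx : x ∈ I) :
    Lp N (fun x => h x * h x) x = 2 * h x * Lp N h x + 2 * (1 - x ^ 2) * dx h x ^ 2 := by
  unfold Lp
  rw [dx_congr (h := dx fun x => h x * h x) (k := fun x => dx h x * h x + h x * dx h x)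
    (fun y hy => dx_mul hh hh hy) hx, dx_add (hh.dx.mul hh) (hh.mul hh.dx) hx,
    dx_mul hh.dx hh hx, dx_mul hh hh.dx hx, dx_mul hh hh hx]
  ring

end Vale.Agent.P244.L
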