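import Vale.Agent.P244.L.Stmts
import Vale.Agent.P244.ST.L.Drift

/-!
# P244-L block C1 : solvability of the implicit step
-/

open Set Filter Topology
open scoped ContDiff

namespace Vale.Agent.P244.LW
open Vale.Agent.P244.ST

theorem neg_mem_I {x : ℝ} (hx : x ∈ Icc (-1 : ℝ) 1) : -x ∈ Icc (-1 : ℝ) 1 :=
  ⟨by linarith only [hx, hx.2], by linarith only [hx, hx.1]⟩

theorem hd_refl {u : ℝ → ℝ} (hu : Sm u) {x : ℝ} (hx : x ∈ Icc (-1 : ℝ) 1) :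
    HasDerivWithinAt (fun y => u (-y)) (-dx u (-x)) (Icc (-1) 1) x := by
  have h1 := hu.hd (neg_mem_I hx)
  have h2 : HasDerivWithinAt (fun y : ℝ => -y) (-1) (Icc (-1) 1) x :=
    (hasDerivWithinAt_id _ _).neg
  have h3 : HasDerivWithinAt (fun y => u (-y)) (dx u (-x) * (-1)) (Icc (-1) 1) x :=
    HasDerivWithinAt.comp (h := fun y : ℝ => -y) x h1 h2 (fun y hy => neg_mem_I hy)
  exact h3.congr_deriv (by ring)

theorem dx_refl {u : ℝ → ℝ} (hu : Sm u) {x : ℝ} (hx : x ∈ Icc (-1 : ℝ) 1) :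
    dx (fun y => u (-y)) x = -dx u (-x) := dx_of_hd hx (hd_refl hu hx)

theorem dx_odd_of_even {u : ℝ → ℝ} (hu : Sm u) (he : ∀ x ∈ Icc (-1 : ℝ) 1, u (-x) = u x)
    {x : ℝ} (hx : x ∈ Icc (-1 : ℝ) 1) : dx u (-x) = -dx u x := by
  have h1 := dx_refl hu hx
  rw [dx_congr he hx] at h1
  linarith only [h1]

theorem Jd_even (p : ℕ) {w f : ℝ → ℝ} (h : ConfData w f) {x : ℝ} (hx : x ∈ Icc (-1 : ℝ) 1) :
    Jd p w f (-x) = Jd p w f x := by
  unfold Jd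
  rw [h.even_w x hx, dx_odd_of_even h.smooth_w h.even_w hx, dx_odd_of_even h.smooth_f h.even_f hx]
  ring

theorem Jf_odd (p : ℕ) {w f : ℝ → ℝ} (h : ConfData w f) {x : ℝ} (hx : x ∈ Icc (-1 : ℝ) 1) :
    Jf p w f (-x) = -Jf p w f x := by
  unfold Jf
  have h1 : ∫ y in (0 : ℝ)..x, Jd p w f (-y) = ∫ y in (-x)..(-0 : ℝ), Jd p w f y :=
    intervalIntegral.integral_comp_neg _
  have h2 : ∫ y in (0 : ℝ)..x, Jd p w f (-y) = ∫ y in (0 : ℝ)..x, Jd p w f y := by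
    apply intervalIntegral.integral_congr
    intro y hy
    have : y ∈ Icc (-1 : ℝ) 1 := by
      rcases le_total 0 x with h | h
      · rw [uIcc_of_le h] at hy; exact ⟨by linarith only [hy, hy.1], hy.2.trans hx.2⟩
      · rw [uIcc_of_ge h] at hy; exact ⟨hx.1.trans hy.1, by linarith only [hy, hy.2]⟩
    exact Jd_even p h this
  rw [← h2, h1, neg_zero, intervalIntegral.integral_symm]

theorem jet_of_sm {u : ℝ → ℝ} (hu : Sm u) : ST.L.Jet (fun j => dn j u) := by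
  intro j x hx
  have := (hu.dn j).hd hx
  rwa [← dn_succ'] at this

theorem jet_sm {u : ℕ → ℝ → ℝ} (hu : ST.L.Jet u) :
    Sm (u 0) ∧ ∀ j, ∀ x ∈ Icc (-1 : ℝ) 1, dn j (u 0) x = u j x :=
  sm_of_chain hu

/-- bounds for `e^{-2w}` and `J` -/
theorem coef_bd (p : ℕ) (hp : 2 ≤ p) {K : ℝ} {w f : ℝ → ℝ} (hw : Sm w) (hf : Sm f)
    (bw : Bd 1 K w) (bf : Bd 1 K f) {x : ℝ} (hx : x ∈ Icc (-1 : ℝ) 1) :
    Real.exp (-(2 * K)) ≤ Real.exp (-2 * w x) ∧ Real.exp (-2 * w x) ≤ Real.exp (2 * K) ∧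
    |dx (fun y => Real.exp (-2 * w y)) x| ≤ 2 * K * Real.exp (2 * K) ∧
    |Jd p w f x| ≤ Real.exp (2 * K) * (2 * p * K ^ 2) ∧
    |Jf p w f x| ≤ Real.exp (2 * K) * (2 * p * K ^ 2) := by
  have hK : 0 ≤ K := bw.nonneg
  have hp' : (2 : ℝ) ≤ p := by exact_mod_cast hp
  have e0 : ∀ y ∈ Icc (-1 : ℝ) 1, Real.exp (-2 * w y) ≤ Real.exp (2 * K) := fun y hy => by
    apply Real.exp_le_exp.2
    have := abs_le.1 (bw 0 (by norm_num) y hy)
    rw [dn_zero] at this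
    linarith only [this, this.1]
  have e1 : Real.exp (-(2 * K)) ≤ Real.exp (-2 * w x) := by
    apply Real.exp_le_exp.2
    have := abs_le.1 (bw 0 (by norm_num) x hx)
    rw [dn_zero] at this
    linarith only [this, this.2]
  have bw1 : ∀ y ∈ Icc (-1 : ℝ) 1, |dx w y| ≤ K := fun y hy => bw 1 le_rfl y hy
  have bf1 : ∀ y ∈ Icc (-1 : ℝ) 1, |dx f y| ≤ K := fun y hy => bf 1 le_rfl y hy
  have e3 : ∀ y ∈ Icc (-1 : ℝ) 1, |Jd p w f y| ≤ Real.exp (2 * K) * (2 * p * K ^ 2) := by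
    intro y hy
    unfold Jd
    rw [abs_mul, abs_of_pos (Real.exp_pos _)]
    apply mul_le_mul (e0 y hy) _ (abs_nonneg _) (Real.exp_pos _).le
    have h1 : (dx w y) ^ 2 ≤ K ^ 2 := sq_le_sq' (by linarith only [bw1, hy, (abs_le.1 (bw1 y hy)).1])
      (abs_le.1 (bw1 y hy)).2
    have h2 : (dx f y) ^ 2 ≤ K ^ 2 := sq_le_sq' (by linarith only [bf1, hy, (abs_le.1 (bf1 y hy)).1])
      (abs_le.1 (bf1 y hy)).2
    rw [abs_of_nonneg (by nlinarith only [hp', sq_nonneg (dx w y), sq_nonneg (dx f y)])]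
    nlinarith only [h1, h2, sq_nonneg (dx w y), sq_nonneg (dx f y), sq_nonneg K]
  refine ⟨e1, e0 x hx, ?_, e3 x hx, ?_⟩
  · rw [dx_exp (hw.cmul (-2)) hx, dx_cmul (-2) hw hx, abs_mul, abs_of_pos (Real.exp_pos _),
      abs_mul, show |(-2 : ℝ)| = 2 by norm_num]
    have := mul_le_mul (e0 x hx) (mul_le_mul_of_nonneg_left (bw1 x hx) (by norm_num : (0:ℝ) ≤ 2))
      (by positivity) (Real.exp_pos _).le
    linarith only [this]
  · have h1 : ∀ z ∈ Icc (-1 : ℝ) 1, |dx (Jf p w f) z| ≤ Real.exp (2 * K) * (2 * p * K ^ 2) :=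
      fun z hz => by rw [dx_Jf p hw hf hz]; exact e3 z hz
    have h2 := lip_of_bd (hw.Jf p hf) h1 zero_mem_I hx
    have h3 : Jf p w f 0 = 0 := by unfold Jf; simp
    rw [h3, sub_zero, sub_zero] at h2
    refine h2.trans ?_
    have h4 : |x| ≤ 1 := abs_le.2 ⟨hx.1, hx.2⟩
    have h5 : 0 ≤ Real.exp (2 * K) * (2 * p * K ^ 2) := by positivity
    nlinarith only [h4, h5]

theorem C1 : C1Stmt := by
  intro p hp K
  by_cases hK : K < 0
  · exact ⟨1, one_pos, fun w f _ hw _ => absurd hw.nonneg (not_le.2 hK)⟩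
  push Not at hK
  set K' : ℝ := 1 + Real.exp (2 * K) + 2 * K * Real.exp (2 * K) +
    Real.exp (2 * K) * (2 * p * K ^ 2) with hK'
  have hE : 0 < Real.exp (2 * K) := Real.exp_pos _
  have q1 : 0 ≤ 2 * K * Real.exp (2 * K) := by positivity
  have q2 : 0 ≤ Real.exp (2 * K) * (2 * p * K ^ 2) := by positivity
  have hK1 : 1 ≤ K' := by linarith only [hE, q1, q2]
  have hd : (0 : ℝ) ≤ (p : ℝ) + 1 := by positivity
  obtain ⟨h0, h0pos, hell⟩ := ST.L.ell_drift (d := (p : ℝ) + 1) (K := K') hd hK1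
  refine ⟨h0, h0pos, fun w f hD bw bf h hh => ?_⟩
  have hw : Sm w := hD.smooth_w
  have hf : Sm f := hD.smooth_f
  set a : ℝ → ℝ := fun y => Real.exp (-2 * w y) with ha
  have sa : Sm a := (hw.cmul (-2)).exp
  set b : ℝ → ℝ := fun y => -Jf p w f y with hb
  have sb : Sm b := (hw.Jf p hf).neg
  set g1 : ℝ → ℝ := fun x => w x + h * (-(p : ℝ) * Real.exp (-2 * w x) + x * Jf p w f x) with hg1
  set g2 : ℝ → ℝ := fun x => f x - h * (((p : ℝ) - 1) * Real.exp (-2 * f x)) with hg2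
  have sg1 : Sm g1 := hw.add (((sa.cmul (-(p : ℝ))).add (Sm.id.mul (hw.Jf p hf))).cmul h)
  have sg2 : Sm g2 := hf.sub ((((hf.cmul (-2)).exp).cmul ((p : ℝ) - 1)).cmul h)
  have hcb := fun x (hx : x ∈ Icc (-1 : ℝ) 1) =>
    coef_bd p hp hw hf (bw.le_idx (by norm_num)) (bf.le_idx (by norm_num)) hx
  have hlow : ∀ x ∈ Icc (-1 : ℝ) 1, K'⁻¹ ≤ a x := fun x hx => by
    have h1 := (hcb x hx).1
    rw [Real.exp_neg] at h1
    refine le_trans ?_ h1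
    exact inv_anti₀ hE (by linarith only [q1, q2])
  have bds : ∀ x ∈ Icc (-1 : ℝ) 1, K'⁻¹ ≤ dn 0 a x ∧ dn 0 a x ≤ K' ∧ |dn 1 a x| ≤ K' ∧
      |dn 0 b x| ≤ K' ∧ |dn 1 b x| ≤ K' := fun x hx => by
    obtain ⟨c1, c2, c3, c4, c5⟩ := hcb x hx
    refine ⟨hlow x hx, ?_, ?_, ?_, ?_⟩
    · rw [dn_zero]; linarith only [q1, q2, c2]
    · rw [dn_one]; linarith only [hE, q2, c3]
    · rw [dn_zero, hb, abs_neg]; linarith only [hE, q1, c5]
    · rw [dn_one, hb, dx_neg (hw.Jf p hf) hx, abs_neg, dx_Jf p hw hf hx]; linarith only [hE, q1, c4]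
  have ea : ∀ x ∈ Icc (-1 : ℝ) 1, a (-x) = a x := fun x hx => by
    simp only [ha]; rw [hD.even_w x hx]
  have eb : ∀ x ∈ Icc (-1 : ℝ) 1, b (-x) = -b x := fun x hx => by
    simp only [hb]; rw [Jf_odd p hD hx]
  have eg1 : ∀ x ∈ Icc (-1 : ℝ) 1, g1 (-x) = g1 x := fun x hx => by
    simp only [hg1]; rw [hD.even_w x hx, Jf_odd p hD hx]; ring
  have eg2 : ∀ x ∈ Icc (-1 : ℝ) 1, g2 (-x) = g2 x := fun x hx => by
    simp only [hg2]; rw [hD.even_f x hx]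
  have main : ∀ g : ℝ → ℝ, Sm g → (∀ x ∈ Icc (-1 : ℝ) 1, g (-x) = g x) →
      ∃ u : ℝ → ℝ, Sm u ∧ (∀ x ∈ Icc (-1 : ℝ) 1, u (-x) = u x) ∧
        ∀ x ∈ Icc (-1 : ℝ) 1, u x - h * (Real.exp (-2 * w x) * Ld ((p : ℝ) + 1) u x
          - (1 - x ^ 2) * Jf p w f x * dx u x) = g x := by
    intro g sg eg
    obtain ⟨u, hu, hue⟩ := hell (fun j => dn j a) (fun j => dn j b) (fun j => dn j g)
      (jet_of_sm sa) (jet_of_sm sb) (jet_of_sm sg) bds h hh.1.le hh.2.le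
    obtain ⟨su, hdn⟩ := jet_sm hu
    have hev := ST.L.drift_even (d := (p : ℝ) + 1) hd hh.1.le (a := fun j => dn j a)
      (b := fun j => dn j b) (g := fun j => dn j g)
      (fun x hx => (Real.exp_pos _).le) hu hue ea eb eg
    refine ⟨u 0, su, hev, fun x hx => ?_⟩
    have h1 := hue x hx
    have h2 : dx (u 0) x = u 1 x := hdn 1 x hx
    have h3 : dx (dx (u 0)) x = u 2 x := hdn 2 x hx
    have h4 : Ld ((p : ℝ) + 1) (u 0) x = ST.L.lapJ ((p : ℝ) + 1) u 0 x := by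
      unfold Ld ST.L.lapJ
      rw [h2, h3]; push_cast; ring
    rw [h4, h2]
    have h5 : dn 0 b x = -Jf p w f x := rfl
    have h6 : dn 0 a x = Real.exp (-2 * w x) := rfl
    have h7 : dn 0 g x = g x := rfl
    rw [h5, h6, h7] at h1
    rw [← h1]; ring
  obtain ⟨W, sW, evW, eqW⟩ := main g1 sg1 eg1
  obtain ⟨F, sF, evF, eqF⟩ := main g2 sg2 eg2
  exact ⟨W, F, ⟨sW, sF, eqW, eqF⟩, ⟨sW, sF, evW, evF⟩⟩

end Vale.Agent.P244.LW
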