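import Vale.Agent.P244.L.Stmts
import Vale.Agent.P244.ST.L.Disc3

/-!
# P244-L : C2 and C3
-/

open Set Filter Topology
open scoped ContDiff

namespace Vale.Agent.P244.LW
open Vale.Agent.P244.ST

theorem jet_dn {u : ℝ → ℝ} (hu : Sm u) : ST.L.Jet (fun j => dn j u) := by
  intro j x hx
  have := (hu.dn j).hd hx
  rwa [← dn_succ'] at this

theorem ub_of_bd {m : ℕ} {A : ℝ} {u : ℝ → ℝ} (h : Bd m A u) : ST.L.Ub m A (fun j => dn j u) := h

theorem lapJ_dn (d : ℝ) (u : ℝ → ℝ) (x : ℝ) : ST.L.lapJ d (fun j => dn j u) 0 x = Ld d u x := by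
  unfold ST.L.lapJ Ld
  simp only [Nat.cast_zero, mul_zero, add_zero, zero_mul, sub_zero]
  rfl

theorem Jint_dn (p : ℕ) (w f : ℝ → ℝ) (x : ℝ) :
    ST.L.Jint p (fun j => dn j w) (fun j => dn j f) x = Jf p w f x := rfl

theorem step_jet {p : ℕ} {h : ℝ} {w f W F : ℝ → ℝ} (S : Step p h w f W F) :
    ST.L.Step p h (fun j => dn j w) (fun j => dn j f) (fun j => dn j W) (fun j => dn j F) where
  jetW := jet_dn S.sW
  jetF := jet_dn S.sF
  eqW := by
    intro x hx
    rw [lapJ_dn, Jint_dn]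
    have := S.eW x hx
    simp only [dn_zero, dn_one]
    linarith only [this]
  eqF := by
    intro x hx
    rw [lapJ_dn, Jint_dn]
    have := S.eF x hx
    simp only [dn_zero, dn_one]
    linarith only [this]

theorem C2 : C2Stmt := by
  intro p _ K
  obtain ⟨C, hC0, hC⟩ := ST.L.step_crude p (le_refl 2) (le_max_right K 1)
  refine ⟨C, hC0, ?_⟩
  intro h hh w f W F hw hf hwK hfK S N M hwN hfN hWM hFM
  have hM0 : 0 ≤ M := hWM.nonneg
  have hN0 : 0 ≤ N := hwN.nonneg
  have key := hC _ _ _ _ (jet_dn hw) (jet_dn hf) h hh.1.le (step_jet S)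
    (ub_of_bd (hwK.mono (le_max_left _ _))) (ub_of_bd (hfK.mono (le_max_left _ _))) M hM0
    (ub_of_bd hWM) (ub_of_bd hFM)
  have hle : N + h * (C * (1 + M)) ≤ N + h * C * (1 + N + M) := by
    have := hh.1.le
    have h1 : 0 ≤ h * C := by positivity
    nlinarith only [hN0, h1]
  refine ⟨fun i hi x hx => ?_, fun i hi x hx => ?_⟩
  · exact ((key i hi N (fun x hx => ⟨hwN i hi x hx, hfN i hi x hx⟩) x hx).1).trans hle
  · exact ((key i hi N (fun x hx => ⟨hwN i hi x hx, hfN i hi x hx⟩) x hx).2).trans hle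

theorem C3 : C3Stmt := by
  intro p _ j hj K
  obtain ⟨C₁, hC10, hC1⟩ := ST.L.step_crude p (show 2 ≤ j - 1 by omega) (le_max_right K 1)
  obtain ⟨C₂, hC20, hC2⟩ := ST.L.step_refined p hj (le_max_right K 1)
  refine ⟨C₁ + C₂, by positivity, ?_⟩
  intro h hh w f W F hw hf hwK hfK hWK hFK S N M hwN hfN hWM hFM
  have hM0 : 0 ≤ M := hWM.nonneg
  have hN0 : 0 ≤ N := hwN.nonneg
  have hh0 := hh.1.le
  have hA1 : (1 : ℝ) ≤ max K 1 := le_max_right _ _
  have key1 := hC1 _ _ _ _ (jet_dn hw) (jet_dn hf) h hh.1.le (step_jet S)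
    (ub_of_bd (hwK.mono (le_max_left _ _))) (ub_of_bd (hfK.mono (le_max_left _ _))) M hM0
    (ub_of_bd (hWM.le_idx (by omega))) (ub_of_bd (hFM.le_idx (by omega)))
  have lev : ∀ {u : ℝ → ℝ} {Q : ℝ}, Q ≤ max N M → Bd (j - 1) K u → Bd j Q u →
      ST.L.Lev j (max N M) (max K 1) (fun j => dn j u) := by
    intro u Q hQ h1 h2
    refine ⟨fun i hi x hx => (h1 i (by omega) x hx).trans (le_max_left _ _), fun x hx => ?_⟩
    refine (h2 j le_rfl x hx).trans ?_
    have h3 : 0 ≤ max N M := le_max_of_le_left hN0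
    nlinarith only [hA1, hQ, h3]
  have key2 := hC2 _ _ _ _ (jet_dn hw) (jet_dn hf) h hh.1.le (step_jet S) (max N M)
    (le_max_of_le_left hN0) (lev (le_max_left _ _) hwK hwN) (lev (le_max_left _ _) hfK hfN)
    (lev (le_max_right _ _) hWK hWM) (lev (le_max_right _ _) hFK hFM) N
    (fun x hx => ⟨hwN j le_rfl x hx, hfN j le_rfl x hx⟩)
  have hmax : max N M ≤ N + M := max_le (by linarith only [hM0]) (by linarith)
  have hle1 : N + h * (C₁ * (1 + M)) ≤ N + h * (C₁ + C₂) * (1 + N + M) := by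
    have h1 : 0 ≤ h * C₁ := by positivity
    have h2 : 0 ≤ h * C₂ := by positivity
    nlinarith only [hM0, hN0, h1, h2]
  have hle2 : N + h * (C₂ * (1 + max N M)) ≤ N + h * (C₁ + C₂) * (1 + N + M) := by
    have h1 : 0 ≤ h * C₁ := by positivity
    have h2 : 0 ≤ h * C₂ := by positivity
    nlinarith only [hM0, hN0, hmax, h1, h2]
  refine ⟨fun i hi x hx => ?_, fun i hi x hx => ?_⟩
  · rcases Nat.lt_or_ge i j with h1 | h1
    · exact ((key1 i (by omega) N (fun x hx => ⟨hwN i hi x hx, hfN i hi x hx⟩) x hx).1).trans hle1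
    · obtain rfl : i = j := le_antisymm hi h1
      exact (key2 x hx).1.trans hle2
  · rcases Nat.lt_or_ge i j with h1 | h1
    · exact ((key1 i (by omega) N (fun x hx => ⟨hwN i hi x hx, hfN i hi x hx⟩) x hx).2).trans hle1
    · obtain rfl : i = j := le_antisymm hi h1
      exact (key2 x hx).2.trans hle2

end Vale.Agent.P244.LW
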