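import Vale.Agent.P244.L.Stmts

/-!
# P244-L block C4 : the implicit scheme, uniform bounds of all orders
-/

open Set Filter Topology
open scoped ContDiff

namespace Vale.Agent.P244.LW
open Vale.Agent.P244.ST

/-- a self-improving bound gives an absolute bound -/
theorem growth {j : ℕ} {h C N : ℝ} (hh : 0 ≤ h) (hC : 0 ≤ C) (hhC : h * C ≤ 1 / 2) {W F : ℝ → ℝ}
    (sW : Sm W) (sF : Sm F) (hN : 0 ≤ N)
    (himp : ∀ M : ℝ, Bd j M W → Bd j M F →
      Bd j (N + h * C * (1 + N + M)) W ∧ Bd j (N + h * C * (1 + N + M)) F) :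
    Bd j ((N + 1) * Real.exp (3 * C * h) - 1) W ∧
      Bd j ((N + 1) * Real.exp (3 * C * h) - 1) F := by
  obtain ⟨K1, _, hK1⟩ := sW.exists_Bd j
  obtain ⟨K2, _, hK2⟩ := sF.exists_Bd j
  set S : Set ℝ := {M | Bd j M W ∧ Bd j M F} with hS
  have hne : S.Nonempty := ⟨max K1 K2, hK1.mono (le_max_left _ _), hK2.mono (le_max_right _ _)⟩
  have hbdd : BddBelow S := ⟨0, fun M hM => hM.1.nonneg⟩
  have hmem : sInf S ∈ S := by
    constructor
    · intro i hi x hx
      exact le_csInf hne (fun M hM => hM.1 i hi x hx)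
    · intro i hi x hx
      exact le_csInf hne (fun M hM => hM.2 i hi x hx)
  set M := sInf S with hM
  have h1 := himp M hmem.1 hmem.2
  have h2 : M ≤ N + h * C * (1 + N + M) := csInf_le hbdd h1
  have hM0 : 0 ≤ M := hmem.1.nonneg
  set y := h * C with hy
  have hy0 : 0 ≤ y := mul_nonneg hh hC
  -- M + 1 ≤ (N+1)(1+y)/(1-y) ≤ (N+1) e^{3y}
  have h3 : (M + 1) * (1 - y) ≤ (N + 1) * (1 + y) := by nlinarith
  have h4 : (1 + y) ≤ (1 - y) * Real.exp (3 * y) := by
    have h5 : 1 + 3 * y + (3 * y) ^ 2 / 2 ≤ Real.exp (3 * y) :=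
      Real.quadratic_le_exp_of_nonneg (by positivity)
    have h6 : 0 ≤ 1 - y := by linarith
    nlinarith [mul_le_mul_of_nonneg_left h5 h6, sq_nonneg y, mul_nonneg hy0 hy0]
  have h5 : M + 1 ≤ (N + 1) * Real.exp (3 * y) := by
    have h6 : (0 : ℝ) < 1 - y := by linarith
    have h7 : (M + 1) * (1 - y) ≤ ((N + 1) * Real.exp (3 * y)) * (1 - y) := by
      nlinarith [mul_le_mul_of_nonneg_left h4 (by linarith : (0:ℝ) ≤ N + 1)]
    exact le_of_mul_le_mul_right h7 h6
  have h6 : 3 * y = 3 * C * h := by rw [hy]; ring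
  rw [h6] at h5
  exact ⟨hmem.1.mono (by linarith only [h5]), hmem.2.mono (by linarith only [h5])⟩

theorem finite_bd {P : ℕ → ℝ → Prop} (hmono : ∀ k a b, a ≤ b → P k a → P k b)
    (h : ∀ k, ∃ M, P k M) (m : ℕ) : ∃ M, ∀ k < m, P k M := by
  induction m with
  | zero => exact ⟨0, fun k hk => absurd hk (Nat.not_lt_zero _)⟩
  | succ m ih =>
    obtain ⟨M, hM⟩ := ih
    obtain ⟨M', hM'⟩ := h m
    refine ⟨max M M', fun k hk => ?_⟩
    rcases Nat.lt_succ_iff_lt_or_eq.1 hk with h1 | h1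
    · exact hmono _ _ _ (le_max_left _ _) (hM k h1)
    · rw [h1]; exact hmono _ _ _ (le_max_right _ _) hM'

theorem C4 (hC1 : C1Stmt) (hC2 : C2Stmt) (hC3 : C3Stmt) : C4Stmt := by
  intro p hp K₀
  by_cases hK₀ : K₀ < 0
  · exact ⟨1, ⟨one_pos, le_rfl⟩, fun w₀ f₀ _ hw _ => absurd hw.nonneg (not_le.2 hK₀)⟩
  push Not at hK₀
  set K : ℝ := 2 * (K₀ + 1) with hK
  obtain ⟨h₀, h₀pos, hstep⟩ := hC1 p hp K
  obtain ⟨C, hC, hest⟩ := hC2 p hp K
  set T₀ : ℝ := min 1 (Real.log 2 / (3 * C + 1)) with hT₀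
  have hlog : 0 < Real.log 2 := Real.log_pos (by norm_num)
  have hT₀pos : 0 < T₀ := lt_min one_pos (div_pos hlog (by linarith only [hC]))
  have hT₀1 : T₀ ≤ 1 := min_le_left _ _
  have hexp : ∀ s ≤ T₀, Real.exp (3 * C * s) ≤ 2 := by
    intro s hs
    have h1 : s ≤ Real.log 2 / (3 * C + 1) := hs.trans (min_le_right _ _)
    have h2 : 3 * C * s ≤ Real.log 2 := by
      rcases le_total s 0 with h | h
      · have : 3 * C * s ≤ 0 := mul_nonpos_of_nonneg_of_nonpos (by linarith only [hC]) h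
        linarith only [hlog, this]
      · have h3 : (3 * C + 1) * s ≤ Real.log 2 := by
          rw [le_div_iff₀ (by linarith only [hC])] at h1; linarith only [h1]
        linarith only [h, h3]
    calc Real.exp (3 * C * s) ≤ Real.exp (Real.log 2) := Real.exp_le_exp.2 h2
      _ = 2 := Real.exp_log (by norm_num)
  refine ⟨T₀, ⟨hT₀pos, hT₀1⟩, fun w₀ f₀ hD bw bf => ?_⟩
  -- the smallest number of steps
  obtain ⟨Nm, hNm⟩ := exists_nat_gt (T₀ / min (h₀) (1 / (2 * C + 1)))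
  have hmin : 0 < min h₀ (1 / (2 * C + 1)) := lt_min h₀pos (by positivity)
  set N : ℕ → ℕ := fun m => m + (Nm + 1) with hN
  have hNpos : ∀ m, 0 < N m := fun m => Nat.succ_pos _
  have hNtend : Tendsto N atTop atTop := tendsto_atTop_mono (fun m => Nat.le_add_right _ _) tendsto_id
  set hs : ℕ → ℝ := fun m => T₀ / (N m : ℝ) with hhs
  have hNr : ∀ m, (0 : ℝ) < (N m : ℝ) := fun m => by exact_mod_cast hNpos m
  have hspos : ∀ m, 0 < hs m := fun m => div_pos hT₀pos (hNr m)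
  have hsmall : ∀ m, hs m < min h₀ (1 / (2 * C + 1)) := by
    intro m
    rw [hhs]
    simp only
    rw [div_lt_iff₀ (hNr m)]
    rw [div_lt_iff₀ hmin] at hNm
    have : (Nm : ℝ) ≤ (N m : ℝ) := by
      rw [hN]; push_cast; linarith only [(Nat.cast_nonneg m : (0:ℝ) ≤ m)]
    nlinarith only [hNm, hmin, this]
  have hs1 : ∀ m, hs m ≤ 1 := by
    intro m
    rw [hhs]; simp only
    rw [div_le_iff₀ (hNr m)]
    have : (1 : ℝ) ≤ (N m : ℝ) := by exact_mod_cast hNpos m
    linarith only [hT₀1, this]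
  have hsC : ∀ m, hs m * C ≤ 1 / 2 := by
    intro m
    have h1 := (hsmall m).trans_le (min_le_right _ _)
    rw [lt_div_iff₀ (by linarith only [hC])] at h1
    nlinarith only [hspos, h1, hspos m]
  -- the step function
  classical
  set nx : ℝ → ((ℝ → ℝ) × (ℝ → ℝ)) → ((ℝ → ℝ) × (ℝ → ℝ)) := fun h u =>
    if hc : ∃ v : (ℝ → ℝ) × (ℝ → ℝ), Step p h u.1 u.2 v.1 v.2 ∧ ConfData v.1 v.2 then hc.choose else u
    with hnx
  set sq : ℕ → ℕ → ((ℝ → ℝ) × (ℝ → ℝ)) := fun m n => (nx (hs m))^[n] (w₀, f₀) with hsq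
  have sq0 : ∀ m, sq m 0 = (w₀, f₀) := fun m => rfl
  have sqS : ∀ m n, sq m (n + 1) = nx (hs m) (sq m n) := fun m n =>
    Function.iterate_succ_apply' _ _ _
  have hnxs : ∀ m (u : (ℝ → ℝ) × (ℝ → ℝ)), ConfData u.1 u.2 → Bd 2 K u.1 → Bd 2 K u.2 →
      Step p (hs m) u.1 u.2 (nx (hs m) u).1 (nx (hs m) u).2 ∧
        ConfData (nx (hs m) u).1 (nx (hs m) u).2 := by
    intro m u hu b1 b2
    obtain ⟨W, F, h1, h2⟩ := hstep u.1 u.2 hu b1 b2 (hs m)
      ⟨hspos m, (hsmall m).trans_le (min_le_left _ _)⟩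
    have hc : ∃ v : (ℝ → ℝ) × (ℝ → ℝ), Step p (hs m) u.1 u.2 v.1 v.2 ∧ ConfData v.1 v.2 :=
      ⟨(W, F), h1, h2⟩
    have : nx (hs m) u = hc.choose := by rw [hnx]; simp only; rw [dif_pos hc]
    rw [this]
    exact hc.choose_spec
  have hnh : ∀ m, ∀ n ≤ N m, (n : ℝ) * hs m ≤ T₀ := by
    intro m n hn
    rw [hhs]; simp only
    rw [mul_div_assoc', div_le_iff₀ (hNr m)]
    have : (n : ℝ) ≤ (N m : ℝ) := by exact_mod_cast hn
    nlinarith only [hT₀pos, this]
  -- level 2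
  have lev2 : ∀ m n, n ≤ N m → ConfData (sq m n).1 (sq m n).2 ∧
      Bd 2 ((K₀ + 1) * Real.exp (3 * C * ((n : ℝ) * hs m)) - 1) (sq m n).1 ∧
      Bd 2 ((K₀ + 1) * Real.exp (3 * C * ((n : ℝ) * hs m)) - 1) (sq m n).2 := by
    intro m n
    induction n with
    | zero =>
      intro _
      rw [sq0]
      refine ⟨hD, ?_, ?_⟩ <;> simp <;> assumption
    | succ n ih =>
      intro hn
      obtain ⟨d, b1, b2⟩ := ih (by omega)
      have hle : (K₀ + 1) * Real.exp (3 * C * ((n : ℝ) * hs m)) - 1 ≤ K := by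
        have := hexp _ (hnh m n (by omega))
        rw [hK]; nlinarith only [hK₀, this]
      have hN0 : 0 ≤ (K₀ + 1) * Real.exp (3 * C * ((n : ℝ) * hs m)) - 1 := b1.nonneg
      obtain ⟨st, cd⟩ := hnxs m (sq m n) d (b1.mono hle) (b2.mono hle)
      rw [← sqS] at st cd
      have g := growth (j := 2) (hspos m).le hC (hsC m) st.sW st.sF hN0
        (fun M hM1 hM2 => hest (hs m) ⟨hspos m, hs1 m⟩ _ _ _ _ d.smooth_w d.smooth_f
          (b1.mono hle) (b2.mono hle) st _ M b1 b2 hM1 hM2)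
      have e : ((K₀ + 1) * Real.exp (3 * C * ((n : ℝ) * hs m)) - 1 + 1) * Real.exp (3 * C * hs m) - 1
          = (K₀ + 1) * Real.exp (3 * C * (((n + 1 : ℕ) : ℝ) * hs m)) - 1 := by
        rw [sub_add_cancel, mul_assoc, ← Real.exp_add]
        congr 3; push_cast; ring
      rw [e] at g
      exact ⟨cd, g.1, g.2⟩
  have lev2K : ∀ m n, n ≤ N m → Bd 2 K (sq m n).1 ∧ Bd 2 K (sq m n).2 := by
    intro m n hn
    obtain ⟨d, b1, b2⟩ := lev2 m n hn
    have hle : (K₀ + 1) * Real.exp (3 * C * ((n : ℝ) * hs m)) - 1 ≤ K := by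
      have := hexp _ (hnh m n hn)
      rw [hK]; nlinarith only [hK₀, this]
    exact ⟨b1.mono hle, b2.mono hle⟩
  have hst : ∀ m, ∀ n < N m, Step p (hs m) (sq m n).1 (sq m n).2 (sq m (n + 1)).1
      (sq m (n + 1)).2 := by
    intro m n hn
    rw [sqS]
    exact (hnxs m (sq m n) (lev2 m n hn.le).1 (lev2K m n hn.le).1 (lev2K m n hn.le).2).1
  -- all levels
  have lev : ∀ j, ∃ A : ℝ, ∀ m, ∀ n ≤ N m, Bd (j + 2) A (sq m n).1 ∧ Bd (j + 2) A (sq m n).2 := by
    intro j
    induction j with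
    | zero => exact ⟨K, lev2K⟩
    | succ j ih =>
      obtain ⟨A, hA⟩ := ih
      obtain ⟨C', hC', hest'⟩ := hC3 p hp (j + 3) (by omega) A
      -- initial bound
      obtain ⟨A1, hA1n, hA1⟩ := Sm.exists_Bd hD.smooth_w (j + 3)
      obtain ⟨A2, hA2n, hA2⟩ := Sm.exists_Bd hD.smooth_f (j + 3)
      set A0 := max A1 A2 with hA0
      have hA00 : 0 ≤ A0 := le_max_of_le_left hA1n
      -- large m
      obtain ⟨m1, hm1⟩ := exists_nat_gt (2 * C' + 1)
      have hlarge : ∀ m, m1 ≤ m → hs m * C' ≤ 1 / 2 := by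
        intro m hm
        have h1 : (m : ℝ) ≤ (N m : ℝ) := by
          rw [hN]; push_cast; linarith only [(Nat.cast_nonneg Nm : (0:ℝ) ≤ Nm)]
        have h2 : (m1 : ℝ) ≤ (m : ℝ) := by exact_mod_cast hm
        rw [hhs]; simp only
        rw [div_mul_eq_mul_div, div_le_iff₀ (hNr m)]
        nlinarith only [hT₀pos, hT₀1, hm1, h1, h2]
      have hbig : ∀ m, m1 ≤ m → ∀ n, n ≤ N m →
          Bd (j + 3) ((A0 + 1) * Real.exp (3 * C' * ((n : ℝ) * hs m)) - 1) (sq m n).1 ∧
          Bd (j + 3) ((A0 + 1) * Real.exp (3 * C' * ((n : ℝ) * hs m)) - 1) (sq m n).2 := by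
        intro m hm n
        induction n with
        | zero =>
          intro _
          rw [sq0]
          constructor
          · exact hA1.mono (by simp; exact le_max_left _ _)
          · exact hA2.mono (by simp; exact le_max_right _ _)
        | succ n ihn =>
          intro hn
          obtain ⟨b1, b2⟩ := ihn (by omega)
          have st := hst m n (by omega)
          have hN0 : 0 ≤ (A0 + 1) * Real.exp (3 * C' * ((n : ℝ) * hs m)) - 1 := b1.nonneg
          have d := (lev2 m n (by omega)).1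
          have g := growth (j := j + 3) (hspos m).le hC' (hlarge m hm) st.sW st.sF hN0
            (fun M hM1 hM2 => hest' (hs m) ⟨hspos m, hs1 m⟩ _ _ _ _ d.smooth_w d.smooth_f
              (hA m n (by omega)).1 (hA m n (by omega)).2 (hA m (n + 1) hn).1 (hA m (n + 1) hn).2
              st _ M b1 b2 hM1 hM2)
          have e : ((A0 + 1) * Real.exp (3 * C' * ((n : ℝ) * hs m)) - 1 + 1) *
              Real.exp (3 * C' * hs m) - 1
              = (A0 + 1) * Real.exp (3 * C' * (((n + 1 : ℕ) : ℝ) * hs m)) - 1 := by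
            rw [sub_add_cancel, mul_assoc, ← Real.exp_add]
            congr 3; push_cast; ring
          rw [e] at g
          exact g
      -- small m
      obtain ⟨A3, hA3⟩ := finite_bd (P := fun m A => ∀ n ≤ N m,
          Bd (j + 3) A (sq m n).1 ∧ Bd (j + 3) A (sq m n).2)
        (fun k a b hab h n hn => ⟨(h n hn).1.mono hab, (h n hn).2.mono hab⟩)
        (fun m => by
          obtain ⟨B, hB⟩ := finite_bd (P := fun n A => n ≤ N m →
              Bd (j + 3) A (sq m n).1 ∧ Bd (j + 3) A (sq m n).2)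
            (fun k a b hab h hn => ⟨(h hn).1.mono hab, (h hn).2.mono hab⟩)
            (fun n => by
              by_cases hn : n ≤ N m
              · have d := (lev2 m n hn).1
                obtain ⟨B1, _, hB1⟩ := Sm.exists_Bd d.smooth_w (j + 3)
                obtain ⟨B2, _, hB2⟩ := Sm.exists_Bd d.smooth_f (j + 3)
                exact ⟨max B1 B2, fun _ => ⟨hB1.mono (le_max_left _ _), hB2.mono (le_max_right _ _)⟩⟩
              · exact ⟨0, fun h => absurd h hn⟩) (N m + 1)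
          exact ⟨B, fun n hn => hB n (by omega) hn⟩) m1
      refine ⟨max A3 ((A0 + 1) * Real.exp (3 * C') - 1), fun m n hn => ?_⟩
      rcases Nat.lt_or_ge m m1 with h | h
      · exact ⟨(hA3 m h n hn).1.mono (le_max_left _ _), (hA3 m h n hn).2.mono (le_max_left _ _)⟩
      · have hb := hbig m h n hn
        have hle : (A0 + 1) * Real.exp (3 * C' * ((n : ℝ) * hs m)) - 1
            ≤ (A0 + 1) * Real.exp (3 * C') - 1 := by
          have h1 : Real.exp (3 * C' * ((n : ℝ) * hs m)) ≤ Real.exp (3 * C') := by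
            apply Real.exp_le_exp.2
            have h2 : (n : ℝ) * hs m ≤ 1 := (hnh m n hn).trans hT₀1
            nlinarith only [hC', h2]
          nlinarith only [hA00, h1]
        exact ⟨hb.1.mono (hle.trans (le_max_right _ _)), hb.2.mono (hle.trans (le_max_right _ _))⟩
  have levall : ∀ j, ∃ A : ℝ, ∀ m, ∀ n ≤ N m, Bd j A (sq m n).1 ∧ Bd j A (sq m n).2 := by
    intro j
    obtain ⟨A, hA⟩ := lev j
    exact ⟨A, fun m n hn => ⟨(hA m n hn).1.le_idx (by omega), (hA m n hn).2.le_idx (by omega)⟩⟩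
  choose KK hKK using levall
  refine ⟨N, fun m n => (sq m n).1, fun m n => (sq m n).2, KK, hNtend, fun m => ?_⟩
  refine ⟨hNpos m, rfl, rfl, fun n hn => ⟨(lev2 m n hn).1, fun j => hKK j m n hn⟩, fun n hn => ?_⟩
  exact hst m n hn

end Vale.Agent.P244.LW
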