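import Vale.Agent.P244.L.Base

/-!
# P244-L : differential polynomials in `(w, f)`

`DP p c j G`: `G w f x` is a polynomial in `x`, `e^{-2w}`, `e^{-2f}`, `D^i w`, `D^i f` (`i ≤ j`)
and (if `c = true`) the nonlocal term `J`. They are stable under `D` (order `j + 1`), bounded and
Lipschitz on `C^j`-bounded sets; expansion of `D^j` of the right-hand sides.
-/

open Set Filter Topology
open scoped ContDiff

namespace Vale.Agent.P244.LW
open Vale.Agent.P244.ST

/-- Differential polynomials of order `≤ j`. -/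
inductive DP (p : ℕ) : Bool → ℕ → ((ℝ → ℝ) → (ℝ → ℝ) → ℝ → ℝ) → Prop
  | const (c : Bool) (j : ℕ) (a : ℝ) : DP p c j (fun _ _ _ => a)
  | var (c : Bool) (j : ℕ) : DP p c j (fun _ _ x => x)
  | ew (c : Bool) (j : ℕ) : DP p c j (fun w _ x => Real.exp (-2 * w x))
  | ef (c : Bool) (j : ℕ) : DP p c j (fun _ f x => Real.exp (-2 * f x))
  | dw (c : Bool) {i j : ℕ} (h : i ≤ j) : DP p c j (fun w _ x => dn i w x)
  | df (c : Bool) {i j : ℕ} (h : i ≤ j) : DP p c j (fun _ f x => dn i f x)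
  | J (j : ℕ) : DP p true j (fun w f x => Jf p w f x)
  | add {c : Bool} {j : ℕ} {G H : (ℝ → ℝ) → (ℝ → ℝ) → ℝ → ℝ} : DP p c j G → DP p c j H →
      DP p c j (fun w f x => G w f x + H w f x)
  | mul {c : Bool} {j : ℕ} {G H : (ℝ → ℝ) → (ℝ → ℝ) → ℝ → ℝ} : DP p c j G → DP p c j H →
      DP p c j (fun w f x => G w f x * H w f x)

variable {p : ℕ} {c : Bool} {j : ℕ} {G H : (ℝ → ℝ) → (ℝ → ℝ) → ℝ → ℝ}

theorem DP.mono (h : DP p c j G) {k : ℕ} (hk : j ≤ k) : DP p c k G := by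
  induction h with
  | const c j a => exact DP.const c k a
  | var c j => exact DP.var c k
  | ew c j => exact DP.ew c k
  | ef c j => exact DP.ef c k
  | dw c h => exact DP.dw c (h.trans hk)
  | df c h => exact DP.df c (h.trans hk)
  | J j => exact DP.J k
  | add _ _ ih1 ih2 => exact (ih1 hk).add (ih2 hk)
  | mul _ _ ih1 ih2 => exact (ih1 hk).mul (ih2 hk)

theorem DP.neg (h : DP p c j G) : DP p c j (fun w f x => -G w f x) := by
  have h1 := (DP.const (p := p) c j (-1)).mul h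
  simpa only [neg_one_mul] using h1

theorem DP.sub (h : DP p c j G) (h' : DP p c j H) :
    DP p c j (fun w f x => G w f x - H w f x) := by
  have h1 := h.add h'.neg
  simpa only [← sub_eq_add_neg] using h1

theorem DP.cmul (a : ℝ) (h : DP p c j G) : DP p c j (fun w f x => a * G w f x) :=
  (DP.const c j a).mul h

theorem DP.sq (h : DP p c j G) : DP p c j (fun w f x => G w f x ^ 2) := by
  have h1 := h.mul h
  simpa only [← pow_two] using h1

theorem DP.sxx (p : ℕ) (c : Bool) (j : ℕ) : DP p c j (fun _ _ x => 1 - x ^ 2) :=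
  (DP.const c j 1).sub (DP.var c j).sq

theorem DP.jd (p : ℕ) (c : Bool) {j : ℕ} (hj : 1 ≤ j) : DP p c j (fun w f x => Jd p w f x) :=
  (DP.ew c j).mul (((DP.dw c hj).sq.cmul ((p : ℝ) - 1)).add ((DP.df c hj).sq.cmul (p : ℝ)))

theorem DP.sm (h : DP p c j G) {w f : ℝ → ℝ} (hw : Sm w) (hf : Sm f) : Sm (G w f) := by
  induction h with
  | const c j a => exact Sm.const a
  | var c j => exact Sm.id
  | ew c j => exact (hw.cmul (-2)).exp
  | ef c j => exact (hf.cmul (-2)).exp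
  | @dw c i j h => exact hw.dn i
  | @df c i j h => exact hf.dn i
  | J j => exact hw.Jf p hf
  | add _ _ ih1 ih2 => exact ih1.add ih2
  | mul _ _ ih1 ih2 => exact ih1.mul ih2

/-- Derivatives of differential polynomials. -/
theorem DP.exists_dx (h : DP p c j G) : ∃ G', DP p c (j + 1) G' ∧
    ∀ w f : ℝ → ℝ, Sm w → Sm f → ∀ x ∈ Icc (-1 : ℝ) 1, dx (G w f) x = G' w f x := by
  induction h with
  | const c j a => exact ⟨_, DP.const c (j + 1) 0, fun w f _ _ x _ => dx_const a x⟩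
  | var c j => exact ⟨_, DP.const c (j + 1) 1, fun w f _ _ x hx => dx_id hx⟩
  | ew c j =>
    refine ⟨_, (DP.ew c (j + 1)).mul ((DP.dw c (i := 1) (by omega)).cmul (-2)),
      fun w f hw hf x hx => ?_⟩
    rw [dx_exp (hw.cmul (-2)) hx, dx_cmul (-2) hw hx, dn_one]
  | ef c j =>
    refine ⟨_, (DP.ef c (j + 1)).mul ((DP.df c (i := 1) (by omega)).cmul (-2)),
      fun w f hw hf x hx => ?_⟩
    rw [dx_exp (hf.cmul (-2)) hx, dx_cmul (-2) hf hx, dn_one]
  | @dw c i j h =>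
    refine ⟨_, DP.dw c (i := i + 1) (by omega), fun w f hw hf x hx => ?_⟩
    rw [dn_succ']
  | @df c i j h =>
    refine ⟨_, DP.df c (i := i + 1) (by omega), fun w f hw hf x hx => ?_⟩
    rw [dn_succ']
  | J j => exact ⟨_, DP.jd p true (by omega), fun w f hw hf x hx => dx_Jf p hw hf hx⟩
  | @add c j G H hG hH ih1 ih2 =>
    obtain ⟨G', h1, h1'⟩ := ih1
    obtain ⟨H', h2, h2'⟩ := ih2
    refine ⟨_, h1.add h2, fun w f hw hf x hx => ?_⟩
    rw [dx_add (hG.sm hw hf) (hH.sm hw hf) hx, h1' w f hw hf x hx, h2' w f hw hf x hx]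
  | @mul c j G H hG hH ih1 ih2 =>
    obtain ⟨G', h1, h1'⟩ := ih1
    obtain ⟨H', h2, h2'⟩ := ih2
    refine ⟨_, (h1.mul (hH.mono (Nat.le_succ j))).add ((hG.mono (Nat.le_succ j)).mul h2),
      fun w f hw hf x hx => ?_⟩
    rw [dx_mul (hG.sm hw hf) (hH.sm hw hf) hx, h1' w f hw hf x hx, h2' w f hw hf x hx]

/-! ### bounds -/

/-- Boundedness and Lipschitz property of a functional on `C^j`-bounded sets. -/
def BL (j : ℕ) (K : ℝ) (G : (ℝ → ℝ) → (ℝ → ℝ) → ℝ → ℝ) : Prop :=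
  ∃ M : ℝ, 0 ≤ M ∧
    (∀ w f : ℝ → ℝ, Sm w → Sm f → Bd j K w → Bd j K f → ∀ x ∈ Icc (-1 : ℝ) 1, |G w f x| ≤ M) ∧
    ∀ w f w' f' : ℝ → ℝ, Sm w → Sm f → Sm w' → Sm f' → Bd j K w → Bd j K f → Bd j K w' →
      Bd j K f' → ∀ N : ℝ, (∀ i ≤ j, ∀ x ∈ Icc (-1 : ℝ) 1, |dn i w' x - dn i w x| ≤ N) →
      (∀ i ≤ j, ∀ x ∈ Icc (-1 : ℝ) 1, |dn i f' x - dn i f x| ≤ N) →
      ∀ x ∈ Icc (-1 : ℝ) 1, |G w' f' x - G w f x| ≤ M * N

theorem abs_exp_sub_le {a b m : ℝ} (ha : a ≤ m) (hb : b ≤ m) :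
    |Real.exp a - Real.exp b| ≤ Real.exp m * |a - b| := by
  wlog h : b ≤ a generalizing a b
  · rw [abs_sub_comm, abs_sub_comm a b]
    exact this hb ha (le_of_not_ge h)
  have h1 : Real.exp b = Real.exp a * Real.exp (b - a) := by rw [← Real.exp_add]; ring_nf
  have h2 : b - a + 1 ≤ Real.exp (b - a) := Real.add_one_le_exp _
  rw [abs_of_nonneg (sub_nonneg.2 (Real.exp_le_exp.2 h)), abs_of_nonneg (sub_nonneg.2 h), h1]
  have h3 : Real.exp a ≤ Real.exp m := Real.exp_le_exp.2 ha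
  have h4 := Real.exp_pos a
  calc Real.exp a - Real.exp a * Real.exp (b - a)
      = Real.exp a * (1 - Real.exp (b - a)) := by ring
    _ ≤ Real.exp a * (a - b) := mul_le_mul_of_nonneg_left (by linarith only [h2]) h4.le
    _ ≤ Real.exp m * (a - b) := mul_le_mul_of_nonneg_right h3 (sub_nonneg.2 h)

theorem BL.exp_aux {K u u' : ℝ} (hu : |u| ≤ K) (hu' : |u'| ≤ K) {N : ℝ} (hN : |u' - u| ≤ N) :
    |Real.exp (-2 * u)| ≤ 2 * Real.exp (2 * K) ∧
      |Real.exp (-2 * u') - Real.exp (-2 * u)| ≤ 2 * Real.exp (2 * K) * N := by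
  have h1 : -2 * u ≤ 2 * K := by linarith only [hu, (abs_le.1 hu).1]
  have h2 : -2 * u' ≤ 2 * K := by linarith only [hu', (abs_le.1 hu').1]
  have h3 := Real.exp_pos (2 * K)
  constructor
  · rw [abs_of_pos (Real.exp_pos _)]
    linarith only [h1, h3, Real.exp_le_exp.2 h1]
  · refine (abs_exp_sub_le h2 h1).trans ?_
    have h4 : |-2 * u' - -2 * u| = 2 * |u' - u| := by
      rw [show -2 * u' - -2 * u = (-2) * (u' - u) by ring, abs_mul]
      norm_num
    rw [h4]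
    nlinarith only [hN, h3]

theorem BL.add {j : ℕ} {K : ℝ} (hG : BL j K G) (hH : BL j K H) :
    BL j K (fun w f x => G w f x + H w f x) := by
  obtain ⟨M, hM, h1, h2⟩ := hG
  obtain ⟨M', hM', h1', h2'⟩ := hH
  refine ⟨M + M', add_nonneg hM hM', ?_, ?_⟩
  · intro w f hw hf hbw hbf x hx
    exact (abs_add_le _ _).trans (add_le_add (h1 w f hw hf hbw hbf x hx)
      (h1' w f hw hf hbw hbf x hx))
  · intro w f w' f' hw hf hw' hf' b1 b2 b3 b4 N n1 n2 x hx
    have e : G w' f' x + H w' f' x - (G w f x + H w f x) =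
      (G w' f' x - G w f x) + (H w' f' x - H w f x) := by ring
    rw [e, add_mul]
    exact (abs_add_le _ _).trans (add_le_add (h2 w f w' f' hw hf hw' hf' b1 b2 b3 b4 N n1 n2 x hx)
      (h2' w f w' f' hw hf hw' hf' b1 b2 b3 b4 N n1 n2 x hx))

theorem BL.mul {j : ℕ} {K : ℝ} (hG : BL j K G) (hH : BL j K H) :
    BL j K (fun w f x => G w f x * H w f x) := by
  obtain ⟨M, hM, h1, h2⟩ := hG
  obtain ⟨M', hM', h1', h2'⟩ := hH
  refine ⟨2 * (M * M'), by positivity, ?_, ?_⟩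
  · intro w f hw hf hbw hbf x hx
    rw [abs_mul]
    have := mul_le_mul (h1 w f hw hf hbw hbf x hx) (h1' w f hw hf hbw hbf x hx) (abs_nonneg _) hM
    nlinarith only [hM, hM', this, mul_nonneg hM hM']
  · intro w f w' f' hw hf hw' hf' b1 b2 b3 b4 N n1 n2 x hx
    have e : G w' f' x * H w' f' x - G w f x * H w f x =
      (G w' f' x - G w f x) * H w' f' x + G w f x * (H w' f' x - H w f x) := by ring
    have a1 := h2 w f w' f' hw hf hw' hf' b1 b2 b3 b4 N n1 n2 x hx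
    have a2 := h2' w f w' f' hw hf hw' hf' b1 b2 b3 b4 N n1 n2 x hx
    have a3 := h1 w f hw hf b1 b2 x hx
    have a4 := h1' w' f' hw' hf' b3 b4 x hx
    have hN : 0 ≤ N := (abs_nonneg _).trans (n1 0 (Nat.zero_le _) x hx)
    rw [e]
    refine (abs_add_le _ _).trans ?_
    rw [abs_mul, abs_mul]
    have a5 := mul_le_mul a1 a4 (abs_nonneg _) (mul_nonneg hM hN)
    have a6 := mul_le_mul a3 a2 (abs_nonneg _) hM
    calc _ ≤ M * N * M' + M * (M' * N) := add_le_add a5 a6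
      _ = 2 * (M * M') * N := by ring

/-- Main induction: `BL` for differential polynomials, given `BL` for `J` if it occurs. -/
theorem DP.bl_aux (h : DP p c j G) (K : ℝ) (hJ : c = true → BL j K (fun w f x => Jf p w f x)) :
    BL j K G := by
  induction h with
  | const c j a =>
    refine ⟨|a|, abs_nonneg a, fun _ _ _ _ _ _ _ _ => le_rfl, ?_⟩
    intro w f w' f' _ _ _ _ _ _ _ _ N n1 _ x hx
    have hN : 0 ≤ N := (abs_nonneg _).trans (n1 0 (Nat.zero_le _) x hx)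
    rw [sub_self, abs_zero]
    exact mul_nonneg (abs_nonneg a) hN
  | var c j =>
    refine ⟨1, zero_le_one, fun _ _ _ _ _ _ x hx => abs_le.2 hx, ?_⟩
    intro w f w' f' _ _ _ _ _ _ _ _ N n1 _ x hx
    have hN : 0 ≤ N := (abs_nonneg _).trans (n1 0 (Nat.zero_le _) x hx)
    rw [sub_self, abs_zero, one_mul]
    exact hN
  | ew c j =>
    refine ⟨2 * Real.exp (2 * K), by positivity, ?_, ?_⟩
    · intro w f _ _ b1 _ x hx
      exact (BL.exp_aux (b1 0 (Nat.zero_le _) x hx) (b1 0 (Nat.zero_le _) x hx) (N := 0)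
        (by simp)).1
    · intro w f w' f' _ _ _ _ b1 _ b3 _ N n1 _ x hx
      exact (BL.exp_aux (b1 0 (Nat.zero_le _) x hx) (b3 0 (Nat.zero_le _) x hx)
        (n1 0 (Nat.zero_le _) x hx)).2
  | ef c j =>
    refine ⟨2 * Real.exp (2 * K), by positivity, ?_, ?_⟩
    · intro w f _ _ _ b1 x hx
      exact (BL.exp_aux (b1 0 (Nat.zero_le _) x hx) (b1 0 (Nat.zero_le _) x hx) (N := 0)
        (by simp)).1
    · intro w f w' f' _ _ _ _ _ b1 _ b3 N _ n1 x hx
      exact (BL.exp_aux (b1 0 (Nat.zero_le _) x hx) (b3 0 (Nat.zero_le _) x hx)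
        (n1 0 (Nat.zero_le _) x hx)).2
  | @dw c i j h =>
    refine ⟨max K 1, le_max_of_le_right zero_le_one, ?_, ?_⟩
    · intro w f _ _ b1 _ x hx
      exact (b1 i h x hx).trans (le_max_left _ _)
    · intro w f w' f' _ _ _ _ _ _ _ _ N n1 _ x hx
      have hN : 0 ≤ N := (abs_nonneg _).trans (n1 0 (Nat.zero_le _) x hx)
      exact (n1 i h x hx).trans (le_mul_of_one_le_left hN (le_max_right _ _))
  | @df c i j h =>
    refine ⟨max K 1, le_max_of_le_right zero_le_one, ?_, ?_⟩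
    · intro w f _ _ _ b1 x hx
      exact (b1 i h x hx).trans (le_max_left _ _)
    · intro w f w' f' _ _ _ _ _ _ _ _ N _ n1 x hx
      have hN : 0 ≤ N := (abs_nonneg _).trans (n1 0 (Nat.zero_le _) x hx)
      exact (n1 i h x hx).trans (le_mul_of_one_le_left hN (le_max_right _ _))
  | J j => exact hJ rfl
  | add _ _ ih1 ih2 => exact (ih1 hJ).add (ih2 hJ)
  | mul _ _ ih1 ih2 => exact (ih1 hJ).mul (ih2 hJ)

theorem abs_integral_le {v : ℝ → ℝ} {M x : ℝ} (hM : ∀ y ∈ Icc (-1 : ℝ) 1, |v y| ≤ M)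
    (hx : x ∈ Icc (-1 : ℝ) 1) : |∫ y in (0 : ℝ)..x, v y| ≤ M := by
  have hM0 : 0 ≤ M := (abs_nonneg _).trans (hM x hx)
  have h1 := intervalIntegral.norm_integral_le_of_norm_le_const (a := 0) (b := x) (f := v)
    (C := M) (fun y hy => by
      refine hM y ?_
      have hy' := uIoc_subset_uIcc hy
      rcases le_total 0 x with h | h
      · rw [uIcc_of_le h] at hy'; exact ⟨by linarith only [hy', hy'.1], hy'.2.trans hx.2⟩
      · rw [uIcc_of_ge h] at hy'; exact ⟨hx.1.trans hy'.1, by linarith only [hy', hy'.2]⟩)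
  rw [Real.norm_eq_abs, sub_zero] at h1
  have h2 : |x| ≤ 1 := abs_le.2 hx
  calc _ ≤ M * |x| := h1
    _ ≤ M * 1 := mul_le_mul_of_nonneg_left h2 hM0
    _ = M := mul_one M

theorem BL.jf (p : ℕ) {j : ℕ} (hj : 1 ≤ j) (K : ℝ) : BL j K (fun w f x => Jf p w f x) := by
  obtain ⟨M, hM, h1, h2⟩ := (DP.jd p false hj).bl_aux K (fun h => absurd h (by simp))
  refine ⟨M, hM, ?_, ?_⟩
  · intro w f hw hf b1 b2 x hx
    exact abs_integral_le (h1 w f hw hf b1 b2) hx
  · intro w f w' f' hw hf hw' hf' b1 b2 b3 b4 N n1 n2 x hx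
    have h3 := abs_integral_le (h2 w f w' f' hw hf hw' hf' b1 b2 b3 b4 N n1 n2) hx
    rw [intervalIntegral.integral_sub (intOn (hw'.Jd p hf').cont zero_mem_I hx)
      (intOn (hw.Jd p hf).cont zero_mem_I hx)] at h3
    exact h3

/-- Differential polynomials are bounded and Lipschitz on `C^j`-bounded sets. -/
theorem DP.bl (h : DP p c j G) (hj : 1 ≤ j) (K : ℝ) : BL j K G :=
  h.bl_aux K fun _ => BL.jf p hj K

/-! ### expansion of the right-hand sides -/

/-- Coefficient of `(1-x²) D^{j+1}` in the expansion of `D^j rhs`. -/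
noncomputable def BB (p j : ℕ) (w f : ℝ → ℝ) (x : ℝ) : ℝ :=
  -Jf p w f x - (2 * (j : ℝ)) * (Real.exp (-2 * w x) * dn 1 w x)

theorem DP.bb (p j : ℕ) {k : ℕ} (hk : 1 ≤ k) : DP p true k (fun w f x => BB p j w f x) :=
  (DP.J k).neg.sub (((DP.ew true k).mul (DP.dw true hk)).cmul (2 * (j : ℝ)))

theorem exists_dx_bb (p j : ℕ) : ∃ D, DP p true (j + 1) D ∧ ∀ w f : ℝ → ℝ, Sm w → Sm f →
    ∀ x ∈ Icc (-1 : ℝ) 1, dx (BB p j w f) x = D w f x := by
  rcases Nat.eq_zero_or_pos j with rfl | hj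
  · obtain ⟨D, h1, h2⟩ := (DP.J (p := p) 0).neg.exists_dx
    refine ⟨D, h1, fun w f hw hf x hx => ?_⟩
    rw [← h2 w f hw hf x hx]
    exact dx_congr (fun y _ => by simp [BB]) hx
  · obtain ⟨D, h1, h2⟩ := (DP.bb p j (k := 1) le_rfl).exists_dx
    exact ⟨D, h1.mono (by omega), h2⟩

theorem sm_bb (p j : ℕ) {w f : ℝ → ℝ} (hw : Sm w) (hf : Sm f) : Sm (BB p j w f) :=
  (DP.bb p j (k := 1) le_rfl).sm hw hf

/-- General expansion. -/
theorem exp_gen (p : ℕ) (U R : (ℝ → ℝ) → (ℝ → ℝ) → ℝ → ℝ)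
    (hU : ∀ i j : ℕ, i ≤ j → DP p true j (fun w f x => dn i (U w f) x))
    (hUs : ∀ w f : ℝ → ℝ, Sm w → Sm f → Sm (U w f))
    {P0 : (ℝ → ℝ) → (ℝ → ℝ) → ℝ → ℝ} (hP0 : DP p true 0 P0)
    (h0 : ∀ w f : ℝ → ℝ, Sm w → Sm f → ∀ x ∈ Icc (-1 : ℝ) 1, R w f x =
      Real.exp (-2 * w x) * Ld ((p : ℝ) + 1) (U w f) x +
        (1 - x ^ 2) * dx (U w f) x * (-Jf p w f x) + P0 w f x) (j : ℕ) :
    ∃ P, DP p true j P ∧ ∀ w f : ℝ → ℝ, Sm w → Sm f → ∀ x ∈ Icc (-1 : ℝ) 1,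
      dn j (R w f) x = Real.exp (-2 * w x) * Ld ((p : ℝ) + 1 + 2 * j) (dn j (U w f)) x +
        (1 - x ^ 2) * dn (j + 1) (U w f) x * BB p j w f x + P w f x := by
  induction j with
  | zero =>
    refine ⟨P0, hP0, fun w f hw hf x hx => ?_⟩
    rw [dn_zero, dn_zero, h0 w f hw hf x hx]
    simp only [Nat.cast_zero, mul_zero, add_zero, zero_add, dn_one, BB, zero_mul, sub_zero]
  | succ j ih =>
    obtain ⟨P, hP, hPe⟩ := ih
    obtain ⟨P', hP', hPe'⟩ := hP.exists_dx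
    obtain ⟨D, hD, hDe⟩ := exists_dx_bb p j
    set N : ℝ := (p : ℝ) + 1 + 2 * j with hN
    -- the new remainder
    have hu := hU (j + 1) (j + 1) le_rfl
    have hE := DP.ew (p := p) true (j + 1)
    have hx' := DP.var (p := p) true (j + 1)
    have hs := DP.sxx p true (j + 1)
    have hb := DP.bb p j (k := j + 1) (by omega)
    have hw1 := DP.dw (p := p) true (i := 1) (j := j + 1) (by omega)
    refine ⟨_, ((((hx'.mul ((hw1.mul hE).mul hu)).cmul (2 * N)).sub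
      ((hE.mul hu).cmul N)).sub ((hx'.mul (hu.mul hb)).cmul 2)).add
      ((hs.mul (hu.mul hD)).add hP'), fun w f hw hf x hx => ?_⟩
    have hUw := hUs w f hw hf
    have e1 : dn (j + 1) (R w f) x = dx (fun y => Real.exp (-2 * w y) *
        Ld N (dn j (U w f)) y + (1 - y ^ 2) * dn (j + 1) (U w f) y * BB p j w f y +
        P w f y) x := by
      rw [dn_succ']
      exact dx_congr (fun y hy => hPe w f hw hf y hy) hx
    have s1 : Sm (fun y => Real.exp (-2 * w y)) := (hw.cmul (-2)).exp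
    have s2 : Sm (Ld N (dn j (U w f))) := (hUw.dn j).Ld N
    have s3 : Sm (fun y => (1 - y ^ 2) * dn (j + 1) (U w f) y) := Sm.sxx.mul (hUw.dn (j + 1))
    have s4 := sm_bb p j hw hf
    have s5 := hP.sm hw hf
    rw [e1, dx_add ((s1.mul s2).add (s3.mul s4)) s5 hx, dx_add (s1.mul s2) (s3.mul s4) hx,
      dx_mul s1 s2 hx, dx_mul s3 s4 hx, dx_mul Sm.sxx (hUw.dn (j + 1)) hx, dx_sxx hx,
      dx_exp (hw.cmul (-2)) hx, dx_cmul (-2) hw hx, dx_Ld (hUw.dn j) N hx,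
      hPe' w f hw hf x hx, hDe w f hw hf x hx]
    have e2 : dx (dn j (U w f)) = dn (j + 1) (U w f) := (dn_succ' j _).symm
    have e3 : dx (dn (j + 1) (U w f)) x = dn (j + 1 + 1) (U w f) x := by rw [dn_succ' (j + 1)]
    have e4 : Ld N (dn j (U w f)) x = (1 - x ^ 2) * dn (j + 1 + 1) (U w f) x -
        N * x * dn (j + 1) (U w f) x := by
      rw [← e3, ← e2]; rfl
    rw [e4, e2, e3, dn_one]
    have e5 : (p : ℝ) + 1 + 2 * ((j + 1 : ℕ) : ℝ) = N + 2 := by rw [hN]; push_cast; ring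
    rw [e5]
    have e6 : BB p (j + 1) w f x = BB p j w f x - 2 * (Real.exp (-2 * w x) * dx w x) := by
      simp only [BB, dn_one]; push_cast; ring
    rw [e6]
    ring

/-- Expansion of `D^j rhsW`. -/
theorem exp_rhsW (p j : ℕ) : ∃ P, DP p true j P ∧ ∀ w f : ℝ → ℝ, Sm w → Sm f →
    ∀ x ∈ Icc (-1 : ℝ) 1, dn j (rhsW p w f) x =
      Real.exp (-2 * w x) * Ld ((p : ℝ) + 1 + 2 * j) (dn j w) x +
        (1 - x ^ 2) * dn (j + 1) w x * BB p j w f x + P w f x := by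
  refine exp_gen p (fun w _ => w) (fun w f => rhsW p w f) (fun i j h => DP.dw true h)
    (fun w f hw _ => hw)
    (((DP.ew true 0).cmul (-(p : ℝ))).add ((DP.var true 0).mul (DP.J 0))) ?_ j
  intro w f hw hf x hx
  simp only [rhsW, lap_eq]
  ring

/-- Expansion of `D^j rhsF`. -/
theorem exp_rhsF (p j : ℕ) : ∃ P, DP p true j P ∧ ∀ w f : ℝ → ℝ, Sm w → Sm f →
    ∀ x ∈ Icc (-1 : ℝ) 1, dn j (rhsF p w f) x =
      Real.exp (-2 * w x) * Ld ((p : ℝ) + 1 + 2 * j) (dn j f) x +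
        (1 - x ^ 2) * dn (j + 1) f x * BB p j w f x + P w f x := by
  refine exp_gen p (fun _ f => f) (fun w f => rhsF p w f) (fun i j h => DP.df true h)
    (fun w f _ hf => hf)
    ((DP.ef true 0).cmul (-((p : ℝ) - 1))) ?_ j
  intro w f hw hf x hx
  simp only [rhsF, lap_eq]
  ring

end Vale.Agent.P244.LW
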