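import Vale.Agent.P244.L.Diff

/-!
# P244-L : uniqueness (`L2Statement`) and continuous dependence in `C¹` (`L3Statement`)
-/

open Set Filter Topology
open scoped ContDiff

namespace Vale.Agent.P244.LW
open Vale.Agent.P244.ST

/-- Uniform bounds of every order on compact time intervals. -/
theorem js_Bd {T T₁ : ℝ} (hT : T₁ < T) {u : ℝ → ℝ → ℝ} (h : L.JS T u) (j : ℕ) :
    ∃ K : ℝ, 0 ≤ K ∧ ∀ t ∈ Icc 0 T₁, Bd j K (u t) := by
  have hc : IsCompact (Icc (0 : ℝ) T₁ ×ˢ Icc (-1 : ℝ) 1) := isCompact_Icc.prod isCompact_Icc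
  have h1 : ∀ i, ∃ K : ℝ, ∀ z ∈ Icc (0 : ℝ) T₁ ×ˢ Icc (-1 : ℝ) 1, |dn i (u z.1) z.2| ≤ K := by
    intro i
    obtain ⟨K, hK⟩ := hc.exists_bound_of_continuousOn (js_cont hT (js_dn h i))
    exact ⟨K, fun z hz => by simpa using hK z hz⟩
  choose K hK using h1
  refine ⟨∑ i ∈ Finset.range (j + 1), |K i|, Finset.sum_nonneg fun i _ => abs_nonneg _,
    fun t ht i hi x hx => ?_⟩
  calc |dn i (u t) x| ≤ K i := hK i (t, x) ⟨ht, hx⟩
    _ ≤ |K i| := le_abs_self _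
    _ ≤ _ := Finset.single_le_sum (f := fun i => |K i|) (fun i _ => abs_nonneg _)
      (Finset.mem_range.2 (by omega))

/-- INTERFACE L2. -/
theorem L2 : L2Statement := by
  intro p _ T _ w f w' f' hS hS' h0 t ht x hx
  have jw : L.JS T w := hS.smooth_w
  have jf : L.JS T f := hS.smooth_f
  have jw' : L.JS T w' := hS'.smooth_w
  have jf' : L.JS T f' := hS'.smooth_f
  obtain ⟨K1, hK1, b1⟩ := js_Bd ht.2 jw 3
  obtain ⟨K2, hK2, b2⟩ := js_Bd ht.2 jf 3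
  obtain ⟨K3, hK3, b3⟩ := js_Bd ht.2 jw' 1
  obtain ⟨K4, hK4, b4⟩ := js_Bd ht.2 jf' 1
  obtain ⟨C, hC, key⟩ := diff_est p 1 le_rfl (K1 + K2 + K3 + K4)
  have h1 := key T T t w f w' f' hS hS' ht.2 ht.2
    (fun s hs => ⟨(b1 s hs).mono (by linarith only [hK2, hK3, hK4]), (b2 s hs).mono (by linarith only [hK1, hK3, hK4]),
      (b3 s hs).mono (by linarith only [hK1, hK2, hK4]), (b4 s hs).mono (by linarith only [hK1, hK2, hK3])⟩) 0 le_rfl
    (fun i _ y hy => by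
      rw [dn_congr (fun z hz => (h0 z hz).1) i y hy, dn_congr (fun z hz => (h0 z hz).2) i y hy]
      simp)
    t ⟨ht.1, le_rfl⟩ 0 (by omega) x hx
  simp only [dn_zero, zero_mul] at h1
  exact ⟨(sub_eq_zero.1 (abs_nonpos_iff.1 h1.1)).symm, (sub_eq_zero.1 (abs_nonpos_iff.1 h1.2)).symm⟩

/-! ### dependence on parameters -/

section param

variable {E : Type*} [NormedAddCommGroup E] [NormedSpace ℝ E]

theorem param_dx {u : E → ℝ → ℝ}
    (h : ContDiffOn ℝ ∞ (fun z : E × ℝ => u z.1 z.2) (univ ×ˢ Icc (-1) 1)) :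
    ContDiffOn ℝ ∞ (fun z : E × ℝ => dx (u z.1) z.2) (univ ×ˢ Icc (-1) 1) := by
  have hU : UniqueDiffOn ℝ ((univ : Set E) ×ˢ Icc (-1 : ℝ) 1) := uniqueDiffOn_univ.prod uI
  have h1 : ContDiffOn ℝ ∞ (fderivWithin ℝ (fun z : E × ℝ => u z.1 z.2) (univ ×ˢ Icc (-1) 1))
      (univ ×ˢ Icc (-1) 1) := ContDiffOn.fderivWithin h hU (by simp)
  have h2 := h1.clm_apply (contDiffOn_const (c := ((0, 1) : E × ℝ)))
  refine ContDiffOn.congr h2 ?_
  rintro ⟨b, x⟩ ⟨hb, hx⟩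
  refine dx_of_hd hx ?_
  have h3 : HasFDerivWithinAt (fun z : E × ℝ => u z.1 z.2) _ (univ ×ˢ Icc (-1) 1) (b, x) :=
    (h.differentiableOn (by simp) (b, x) ⟨hb, hx⟩).hasFDerivWithinAt
  have h4 : HasDerivWithinAt (fun y : ℝ => ((b, y) : E × ℝ)) ((0, 1) : E × ℝ) (Icc (-1) 1) x :=
    (hasDerivWithinAt_const x _ b).prodMk (hasDerivWithinAt_id x _)
  exact h3.comp_hasDerivWithinAt x h4 (fun y hy => ⟨mem_univ _, hy⟩)

omit [NormedSpace ℝ E] in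
theorem param_close_aux {u : E → ℝ → ℝ}
    (h : ContinuousOn (fun z : E × ℝ => u z.1 z.2) (univ ×ˢ Icc (-1) 1)) (b : E) {δ : ℝ}
    (hδ : 0 < δ) : ∀ᶠ b' in 𝓝 b, ∀ x ∈ Icc (-1 : ℝ) 1, |u b' x - u b x| ≤ δ := by
  have h1 := IsCompact.mem_uniformity_of_prod (f := u) (isCompact_Icc (a := (-1 : ℝ)) (b := 1)) h
    (mem_univ b) (Metric.dist_mem_uniformity hδ)
  obtain ⟨v, hv, hv'⟩ := h1
  rw [nhdsWithin_univ] at hv
  filter_upwards [hv] with b' hb' x hx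
  have h2 := hv' b' hb' x hx
  simp only [mem_ofPred_eq, Real.dist_eq] at h2
  exact h2.le

theorem param_close {u : E → ℝ → ℝ}
    (h : ContDiffOn ℝ ∞ (fun z : E × ℝ => u z.1 z.2) (univ ×ˢ Icc (-1) 1)) (b : E) {δ : ℝ}
    (hδ : 0 < δ) : ∀ᶠ b' in 𝓝 b, ∀ i ≤ 1, ∀ x ∈ Icc (-1 : ℝ) 1,
      |dn i (u b') x - dn i (u b) x| ≤ δ := by
  filter_upwards [param_close_aux h.continuousOn b hδ,
    param_close_aux (u := fun b => dx (u b)) (param_dx h).continuousOn b hδ] with b' h1 h2 i hi x hx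
  interval_cases i
  · exact h1 x hx
  · exact h2 x hx

end param

/-- Continuity argument: a continuous function on `[0,T] × [-1,1]` cannot cross the value `1` if
it improves. -/
theorem bootstrap {T : ℝ} {G : ℝ × ℝ → ℝ} (hG : ContinuousOn G (Icc 0 T ×ˢ Icc (-1) 1))
    (h0 : ∀ x ∈ Icc (-1 : ℝ) 1, G (0, x) < 1)
    (himp : ∀ t ∈ Icc 0 T, (∀ s ∈ Icc 0 t, ∀ x ∈ Icc (-1 : ℝ) 1, G (s, x) ≤ 1) →
      ∀ x ∈ Icc (-1 : ℝ) 1, G (t, x) ≤ 1 / 2) :
    ∀ t ∈ Icc 0 T, ∀ x ∈ Icc (-1 : ℝ) 1, G (t, x) ≤ 1 := by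
  by_contra hne
  push Not at hne
  obtain ⟨t₁, ht₁, x₁, hx₁, h1⟩ := hne
  have hcQ : IsCompact (Icc (0 : ℝ) T ×ˢ Icc (-1 : ℝ) 1) := isCompact_Icc.prod isCompact_Icc
  have hZ : IsCompact ((Icc (0 : ℝ) T ×ˢ Icc (-1 : ℝ) 1) ∩ G ⁻¹' (Ici 1)) :=
    hcQ.of_isClosed_subset (hG.preimage_isClosed_of_isClosed hcQ.isClosed isClosed_Ici)
      inter_subset_left
  obtain ⟨z, hz, hmin⟩ := hZ.exists_isMinOn ⟨(t₁, x₁), ⟨ht₁, hx₁⟩, h1.le⟩
    (continuous_fst.continuousOn)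
  obtain ⟨t, x⟩ := z
  obtain ⟨⟨ht, hx⟩, hz1⟩ := hz
  simp only at ht hx
  have hz1' : 1 ≤ G (t, x) := hz1
  have hlt : ∀ s ∈ Icc (0 : ℝ) T, s < t → ∀ y ∈ Icc (-1 : ℝ) 1, G (s, y) < 1 := by
    intro s hs hst y hy
    by_contra hge
    have := hmin (show (s, y) ∈ _ from ⟨⟨hs, hy⟩, (not_lt.1 hge : (1 : ℝ) ≤ G (s, y))⟩)
    simp only [mem_ofPred_eq] at this
    linarith only [hst, this]
  have ht0 : 0 < t := by
    rcases ht.1.eq_or_lt with h | h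
    · exact absurd (h0 x hx) (not_lt.2 (by rw [h]; exact hz1'))
    · exact h
  have hhalf : ∀ s ∈ Ico (0 : ℝ) t, G (s, x) ≤ 1 / 2 := by
    intro s hs
    have hsT : s ∈ Icc (0 : ℝ) T := ⟨hs.1, hs.2.le.trans ht.2⟩
    exact himp s hsT (fun r hr y hy => (hlt r ⟨hr.1, hr.2.trans hsT.2⟩
      (hr.2.trans_lt hs.2) y hy).le) x hx
  have hcont : ContinuousOn (fun s => G (s, x)) (Icc 0 T) :=
    hG.comp (by fun_prop) (fun s hs => ⟨hs, hx⟩)
  have hle : G (t, x) ≤ 1 / 2 := by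
    have h2 : Tendsto (fun s => G (s, x)) (𝓝[Ico 0 t] t) (𝓝 (G (t, x))) :=
      (hcont t ht).mono_left (nhdsWithin_mono _ fun s hs => ⟨hs.1, hs.2.le.trans ht.2⟩)
    have h3 : (𝓝[Ico 0 t] t).NeBot := by
      rw [← mem_closure_iff_nhdsWithin_neBot, closure_Ico ht0.ne]
      exact ⟨ht0.le, le_rfl⟩
    exact le_of_tendsto h2 (by filter_upwards [self_mem_nhdsWithin] with s hs using hhalf s hs)
  linarith only [hz1', hle]

/-- INTERFACE L3. -/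
theorem L3 : L3Statement := by
  intro p _ B _ w₀ f₀ sw₀ sf₀ Tm w f hall b hb T₁ hT₁ ε hε
  obtain ⟨hd, hTb, hS, hi, -⟩ := hall b hb
  have jw : L.JS (Tm b) (w b) := hS.smooth_w
  have jf : L.JS (Tm b) (f b) := hS.smooth_f
  obtain ⟨K1, hK1, b1⟩ := js_Bd hT₁.2 jw 3
  obtain ⟨K2, hK2, b2⟩ := js_Bd hT₁.2 jf 3
  set K := K1 + K2 + 1 with hK
  obtain ⟨C, hC, key⟩ := diff_est p 1 le_rfl K
  set η : ℝ := min ε (1 / 8) with hη
  have hη0 : 0 < η := lt_min hε (by norm_num)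
  have hη8 : η ≤ 1 / 8 := min_le_right _ _
  set δ : ℝ := η / Real.exp (C * T₁) with hδ
  have hδ0 : 0 < δ := div_pos hη0 (Real.exp_pos _)
  have hδη : ∀ t ∈ Icc 0 T₁, δ * Real.exp (C * t) ≤ η := by
    intro t ht
    have h1 : Real.exp (C * t) ≤ Real.exp (C * T₁) :=
      Real.exp_le_exp.2 (mul_le_mul_of_nonneg_left ht.2 hC)
    calc δ * Real.exp (C * t) ≤ δ * Real.exp (C * T₁) := mul_le_mul_of_nonneg_left h1 hδ0.le
      _ = η := by rw [hδ]; field_simp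
  have hδ1 : δ ≤ η := by
    have := hδη 0 ⟨le_rfl, hT₁.1⟩
    simpa using this
  have hev : ∀ᶠ b' in 𝓝[B] b, (∀ i ≤ 1, ∀ x ∈ Icc (-1 : ℝ) 1,
      |dn i (w₀ b') x - dn i (w₀ b) x| ≤ δ) ∧ ∀ i ≤ 1, ∀ x ∈ Icc (-1 : ℝ) 1,
      |dn i (f₀ b') x - dn i (f₀ b) x| ≤ δ :=
    ((param_close sw₀ b hδ0).and (param_close sf₀ b hδ0)).filter_mono nhdsWithin_le_nhds
  filter_upwards [hev, self_mem_nhdsWithin] with b' hb' hb'B
  obtain ⟨-, hTb', hS', hi', halt'⟩ := hall b' hb'B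
  have jw' : L.JS (Tm b') (w b') := hS'.smooth_w
  have jf' : L.JS (Tm b') (f b') := hS'.smooth_f
  -- initial closeness
  have hini : ∀ i ≤ 1, ∀ x ∈ Icc (-1 : ℝ) 1, |dn i (w b' 0) x - dn i (w b 0) x| ≤ δ ∧
      |dn i (f b' 0) x - dn i (f b 0) x| ≤ δ := by
    intro i h1 x hx
    rw [dn_congr (fun z hz => (hi' z hz).1) i x hx, dn_congr (fun z hz => (hi z hz).1) i x hx,
      dn_congr (fun z hz => (hi' z hz).2) i x hx, dn_congr (fun z hz => (hi z hz).2) i x hx]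
    exact ⟨hb'.1 i h1 x hx, hb'.2 i h1 x hx⟩
  -- estimate under a bound of the second solution
  have hest : ∀ T₂ ∈ Icc 0 T₁, T₂ < Tm b' →
      (∀ t ∈ Icc 0 T₂, Bd 1 K (w b' t) ∧ Bd 1 K (f b' t)) →
      ∀ t ∈ Icc 0 T₂, ∀ i ≤ 1, ∀ x ∈ Icc (-1 : ℝ) 1,
        |dn i (w b' t) x - dn i (w b t) x| ≤ η ∧ |dn i (f b' t) x - dn i (f b t) x| ≤ η := by
    intro T₂ hT₂ hlt hB t ht i h1 x hx
    have h2 := key (Tm b) (Tm b') T₂ (w b) (f b) (w b') (f b') hS hS' (hT₂.2.trans_lt hT₁.2) hlt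
      (fun s hs => ⟨(b1 s ⟨hs.1, hs.2.trans hT₂.2⟩).mono (by linarith only [hK2, hη0, hη8]),
        (b2 s ⟨hs.1, hs.2.trans hT₂.2⟩).mono (by linarith only [hK1, hη0, hη8]), hB s hs⟩) δ hδ0.le hini t ht i h1 x hx
    have h3 := hδη t ⟨ht.1, ht.2.trans hT₂.2⟩
    exact ⟨h2.1.trans h3, h2.2.trans h3⟩
  -- bootstrap
  have hboot : ∀ T₂ ∈ Icc 0 T₁, T₂ < Tm b' → ∀ t ∈ Icc 0 T₂, Bd 1 K (w b' t) ∧ Bd 1 K (f b' t) := by
    intro T₂ hT₂ hlt
    let G : ℝ × ℝ → ℝ := fun z =>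
      |dn 0 (w b' z.1) z.2 - dn 0 (w b z.1) z.2| + |dn 1 (w b' z.1) z.2 - dn 1 (w b z.1) z.2| +
      (|dn 0 (f b' z.1) z.2 - dn 0 (f b z.1) z.2| + |dn 1 (f b' z.1) z.2 - dn 1 (f b z.1) z.2|)
    have hGc : ContinuousOn G (Icc 0 T₂ ×ˢ Icc (-1) 1) := by
      have hc : ∀ (i : ℕ) (u v : ℝ → ℝ → ℝ), L.JS (Tm b') u → L.JS (Tm b) v →
          ContinuousOn (fun z : ℝ × ℝ => |dn i (u z.1) z.2 - dn i (v z.1) z.2|)
            (Icc 0 T₂ ×ˢ Icc (-1) 1) := fun i u v hu hv =>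
        ((js_cont hlt (js_dn hu i)).sub (js_cont (hT₂.2.trans_lt hT₁.2) (js_dn hv i))).abs
      exact ((hc 0 _ _ jw' jw).add (hc 1 _ _ jw' jw)).add ((hc 0 _ _ jf' jf).add (hc 1 _ _ jf' jf))
    have hBd : ∀ t ∈ Icc 0 T₂, (∀ x ∈ Icc (-1 : ℝ) 1, G (t, x) ≤ 1) →
        Bd 1 K (w b' t) ∧ Bd 1 K (f b' t) := by
      intro t ht hGt
      have ht1 : t ∈ Icc 0 T₁ := ⟨ht.1, ht.2.trans hT₂.2⟩
      constructor
      · intro i hi1 x hx
        have h1 := hGt x hx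
        have h2 : |dn i (w b' t) x - dn i (w b t) x| ≤ 1 := by
          simp only [G] at h1
          have a1 := abs_nonneg (dn 0 (w b' t) x - dn 0 (w b t) x)
          have a2 := abs_nonneg (dn 1 (w b' t) x - dn 1 (w b t) x)
          have a3 := abs_nonneg (dn 0 (f b' t) x - dn 0 (f b t) x)
          have a4 := abs_nonneg (dn 1 (f b' t) x - dn 1 (f b t) x)
          interval_cases i <;> linarith only [h1, a2, a3, a4, a1]
        have h3 : |dn i (w b t) x| ≤ K1 := b1 t ht1 i (by omega) x hx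
        calc |dn i (w b' t) x| = |(dn i (w b' t) x - dn i (w b t) x) + dn i (w b t) x| := by
              congr 1; ring
          _ ≤ 1 + K1 := (abs_add_le _ _).trans (add_le_add h2 h3)
          _ ≤ K := by rw [hK]; linarith only [hK2]
      · intro i hi1 x hx
        have h1 := hGt x hx
        have h2 : |dn i (f b' t) x - dn i (f b t) x| ≤ 1 := by
          simp only [G] at h1
          have a1 := abs_nonneg (dn 0 (w b' t) x - dn 0 (w b t) x)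
          have a2 := abs_nonneg (dn 1 (w b' t) x - dn 1 (w b t) x)
          have a3 := abs_nonneg (dn 0 (f b' t) x - dn 0 (f b t) x)
          have a4 := abs_nonneg (dn 1 (f b' t) x - dn 1 (f b t) x)
          interval_cases i <;> linarith only [h1, a1, a2, a4, a3]
        have h3 : |dn i (f b t) x| ≤ K2 := b2 t ht1 i (by omega) x hx
        calc |dn i (f b' t) x| = |(dn i (f b' t) x - dn i (f b t) x) + dn i (f b t) x| := by
              congr 1; ring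
          _ ≤ 1 + K2 := (abs_add_le _ _).trans (add_le_add h2 h3)
          _ ≤ K := by rw [hK]; linarith only [hK1]
    have hall := bootstrap hGc
      (fun x hx => by
        have a1 := hini 0 (by omega) x hx
        have a2 := hini 1 le_rfl x hx
        simp only [G]
        linarith only [hη0, hη8, hδ1, a1, a2, a1.1, a1.2, a2.1, a2.2])
      (fun t ht hle x hx => by
        have h1 := hest t ⟨ht.1, ht.2.trans hT₂.2⟩ (ht.2.trans_lt hlt)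
          (fun s hs => hBd s ⟨hs.1, hs.2.trans ht.2⟩ (hle s hs)) t ⟨ht.1, le_rfl⟩
        have a1 := h1 0 (by omega) x hx
        have a2 := h1 1 le_rfl x hx
        simp only [G]
        linarith only [hη8, a1, a2, a1.1, a1.2, a2.1, a2.2])
    exact fun t ht => hBd t ht (hall t ht)
  have hfin : ∀ t ∈ Icc 0 T₁, t < Tm b' → ∀ i ≤ 1, ∀ x ∈ Icc (-1 : ℝ) 1,
      |dn i (w b' t) x - dn i (w b t) x| ≤ η ∧ |dn i (f b' t) x - dn i (f b t) x| ≤ η :=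
    fun t ht hlt => hest t ht hlt (hboot t ht hlt) t ⟨ht.1, le_rfl⟩
  have hlife : T₁ < Tm b' := by
    by_contra hge
    rw [not_lt] at hge
    rcases halt' with h1 | h1
    · have := hT₁.2.trans_le hTb.2
      linarith only [hge, h1, this]
    · obtain ⟨t, ht, x, hx, hA⟩ := h1 (4 * K)
      obtain ⟨c1, c2⟩ := hboot t ⟨ht.1, ht.2.le.trans hge⟩ ht.2 t ⟨ht.1, le_rfl⟩
      have d1 := c1 0 (by omega) x hx
      have d2 := c1 1 le_rfl x hx
      have d3 := c2 0 (by omega) x hx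
      have d4 := c2 1 le_rfl x hx
      simp only [dn_zero, dn_one] at d1 d2 d3 d4
      unfold size1 at hA
      linarith only [hA, d1, d2, d3, d4]
  refine ⟨hlife, fun t ht x hx => ?_⟩
  have e0 := hfin t ht (ht.2.trans_lt hlife) 0 (by omega) x hx
  have e1 := hfin t ht (ht.2.trans_lt hlife) 1 le_rfl x hx
  have hηε : η ≤ ε := min_le_left _ _
  exact ⟨e0.1.trans hηε, e0.2.trans hηε, e1.1.trans hηε, e1.2.trans hηε⟩

end Vale.Agent.P244.LW
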