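import Vale.Agent.P244.L.Basic

/-!
# P244-L : maximum principles
-/

open Set Filter Topology
open scoped ContDiff

namespace Vale.Agent.P244.L

open Vale.Agent.P244.ST

/-- One-sided derivative at the right end point of a function which is maximal there. -/
theorem deriv_nonneg_left {f : ℝ → ℝ} {a b d : ℝ} (hab : a < b)
    (hd : HasDerivWithinAt f d (Icc a b) b) (hm : ∀ s ∈ Ico a b, f s ≤ f b) : 0 ≤ d := by
  have h1 := hasDerivWithinAt_iff_tendsto_slope.1 hd
  have e : Icc a b \ {b} = Ico a b := by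
    ext y; simp only [Set.mem_sdiff, mem_Icc, mem_singleton_iff, mem_Ico]
    constructor
    · rintro ⟨⟨h1, h2⟩, h3⟩; exact ⟨h1, lt_of_le_of_ne h2 h3⟩
    · rintro ⟨h1, h2⟩; exact ⟨⟨h1, h2.le⟩, h2.ne⟩
  rw [e] at h1
  have : NeBot (𝓝[Ico a b] b) := by
    have := right_nhdsWithin_Ico_neBot hab
    exact this
  refine ge_of_tendsto h1 ?_
  filter_upwards [self_mem_nhdsWithin] with s hs
  rw [slope_def_field]
  exact div_nonneg_of_nonpos (by linarith only [hm, hs, hm s hs]) (by linarith only [hs, hs.2])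

/-- One-sided derivative at the left end point of a function which is maximal there. -/
theorem deriv_nonpos_right {f : ℝ → ℝ} {a b d : ℝ} (hab : a < b)
    (hd : HasDerivWithinAt f d (Icc a b) a) (hm : ∀ s ∈ Ioc a b, f s ≤ f a) : d ≤ 0 := by
  have h1 := hasDerivWithinAt_iff_tendsto_slope.1 hd
  have e : Icc a b \ {a} = Ioc a b := by
    ext y; simp only [Set.mem_sdiff, mem_Icc, mem_singleton_iff, mem_Ioc]
    constructor
    · rintro ⟨⟨h1, h2⟩, h3⟩; exact ⟨lt_of_le_of_ne h1 (Ne.symm h3), h2⟩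
    · rintro ⟨h1, h2⟩; exact ⟨⟨h1.le, h2⟩, h1.ne'⟩
  rw [e] at h1
  have : NeBot (𝓝[Ioc a b] a) := left_nhdsWithin_Ioc_neBot hab
  refine le_of_tendsto h1 ?_
  filter_upwards [self_mem_nhdsWithin] with s hs
  rw [slope_def_field]
  exact div_nonpos_of_nonpos_of_nonneg (by linarith only [hm, hs, hm s hs]) (by linarith only [hs, hs.1])

/-- At a maximum point over `[-1,1]`: `(1-x²) h' = 0` and `L_N h ≤ 0`. -/
theorem max_point {h : ℝ → ℝ} (hh : Sm h) {N : ℝ} (hN : 0 ≤ N) {x : ℝ} (hx : x ∈ I)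
    (hm : ∀ y ∈ I, h y ≤ h x) : (1 - x ^ 2) * dx h x = 0 ∧ Lp N h x ≤ 0 := by
  rcases eq_or_lt_of_le hx.1 with h1 | h1
  · subst h1
    have : dx h (-1) ≤ 0 := deriv_nonpos_right (by norm_num) (hh.hasDeriv hx)
      (fun s hs => hm s ⟨hs.1.le, hs.2⟩)
    refine ⟨by norm_num, ?_⟩
    unfold Lp
    nlinarith only [hN, this]
  rcases eq_or_lt_of_le hx.2 with h2 | h2
  · subst h2
    have : 0 ≤ dx h 1 := deriv_nonneg_left (by norm_num) (hh.hasDeriv hx)
      (fun s hs => hm s ⟨hs.1, hs.2.le⟩)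
    refine ⟨by norm_num, ?_⟩
    unfold Lp
    nlinarith only [hN, this]
  have hnb : ∀ᶠ y in 𝓝 x, y ∈ Ioo (-1 : ℝ) 1 := Ioo_mem_nhds h1 h2
  have hderiv : ∀ {k : ℝ → ℝ}, Sm k → ∀ y ∈ Ioo (-1 : ℝ) 1, HasDerivAt k (dx k y) y := by
    intro k hk y hy
    exact (hk.hasDeriv ⟨hy.1.le, hy.2.le⟩).hasDerivAt (Icc_mem_nhds hy.1 hy.2)
  have hloc : IsLocalMax h x := by
    filter_upwards [hnb] with y hy
    exact hm y ⟨hy.1.le, hy.2.le⟩
  have hd0 : dx h x = 0 := by
    have := hloc.deriv_eq_zero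
    rwa [(hderiv hh x ⟨h1, h2⟩).deriv] at this
  have hdd : dx (dx h) x ≤ 0 := by
    by_contra hcon
    push Not at hcon
    have he : deriv h =ᶠ[𝓝 x] dx h := by
      filter_upwards [hnb] with y hy
      exact (hderiv hh y hy).deriv
    have hdd' : deriv (deriv h) x = dx (dx h) x := by
      rw [he.deriv_eq]; exact (hderiv hh.dx x ⟨h1, h2⟩).deriv
    have hmin : IsLocalMin h x := by
      apply isLocalMin_of_deriv_deriv_pos
      · rw [hdd']; exact hcon
      · rw [(hderiv hh x ⟨h1, h2⟩).deriv]; exact hd0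
      · exact (hderiv hh x ⟨h1, h2⟩).continuousAt
    have hconst : h =ᶠ[𝓝 x] fun _ => h x := by
      filter_upwards [hmin, hloc] with y hy1 hy2
      exact le_antisymm hy2 hy1
    have hz : deriv h =ᶠ[𝓝 x] fun _ => 0 := by
      have := hconst.deriv
      filter_upwards [this] with y hy
      rw [hy]; simp
    have : deriv (deriv h) x = 0 := by
      rw [hz.deriv_eq]; simp
    rw [hdd'] at this
    linarith only [hcon, this]
  refine ⟨by rw [hd0]; ring, ?_⟩
  unfold Lp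
  rw [hd0]
  have : 0 ≤ 1 - x ^ 2 := by nlinarith only [h1, h2, hx.1, hx.2]
  nlinarith only [hdd, this]

/-- At a minimum point over `[-1,1]`. -/
theorem min_point {h : ℝ → ℝ} (hh : Sm h) {N : ℝ} (hN : 0 ≤ N) {x : ℝ} (hx : x ∈ I)
    (hm : ∀ y ∈ I, h x ≤ h y) : (1 - x ^ 2) * dx h x = 0 ∧ 0 ≤ Lp N h x := by
  have := max_point hh.neg hN hx (fun y hy => by simpa using hm y hy)
  rw [dx_neg hh hx, Lp_neg hh N hx] at this
  constructor
  · linarith only [this, this.1]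
  · linarith only [this, this.2]

/-- Parabolic comparison: if at every positive joint maximum the time derivative is at most
`C` times the value, then the maximum grows at most like `e^{Ct}`. -/
theorem gron {ι : Type*} [Finite ι] {T : ℝ} (u ut : ι → ℝ → ℝ → ℝ)
    (hc : ∀ i, ContinuousOn (fun z : ℝ × ℝ => u i z.1 z.2) (Icc 0 T ×ˢ I))
    (hd : ∀ i, ∀ t ∈ Icc 0 T, ∀ x ∈ I, HasDerivWithinAt (fun s => u i s x) (ut i t x) (Icc 0 T) t)
    {C B : ℝ} (hC : 0 ≤ C) (hB : 0 ≤ B) (h0 : ∀ i, ∀ x ∈ I, u i 0 x ≤ B)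
    (key : ∀ i, ∀ t ∈ Ioc 0 T, ∀ x ∈ I, 0 < u i t x → (∀ j, ∀ y ∈ I, u j t y ≤ u i t x) →
      (∀ s ∈ Icc 0 t, ∀ j, ∀ y ∈ I, u j s y ≤ u i t x) →
      ut i t x ≤ C * u i t x) :
    ∀ i, ∀ t ∈ Icc 0 T, ∀ x ∈ I, u i t x ≤ B * Real.exp (C * t) := by
  classical
  intro i₁ t₁ ht₁ x₁ hx₁
  have hmain : ∀ ε > 0, u i₁ t₁ x₁ < (B + ε) * Real.exp ((C + ε) * t₁) := by
    intro ε hε
    by_contra hcon
    push Not at hcon
    set b : ℝ → ℝ := fun t => (B + ε) * Real.exp ((C + ε) * t) with hb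
    have hbc : Continuous b := by rw [hb]; fun_prop
    have hbpos : ∀ t, 0 < b t := fun t => mul_pos (by linarith only [hB, hε]) (Real.exp_pos _)
    have hbmono : ∀ s t, s ≤ t → b s ≤ b t := by
      intro s t hst
      apply mul_le_mul_of_nonneg_left _ (by linarith only [hB, hε])
      exact Real.exp_le_exp.2 (mul_le_mul_of_nonneg_left hst (by linarith only [hC, hε]))
    set K : Set (ℝ × ℝ) := {z ∈ Icc 0 T ×ˢ I | ∃ i, b z.1 ≤ u i z.1 z.2} with hK
    have hKc : IsCompact K := by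
      have hcomp : IsCompact (Icc 0 T ×ˢ I) := isCompact_Icc.prod isCompact_Icc
      have : K = ⋃ i, {z ∈ Icc 0 T ×ˢ I | b z.1 ≤ u i z.1 z.2} := by
        ext z; simp only [hK, mem_ofPred_eq, mem_iUnion]
        constructor
        · rintro ⟨h1, i, h2⟩; exact ⟨i, h1, h2⟩
        · rintro ⟨i, h1, h2⟩; exact ⟨h1, i, h2⟩
      rw [this]
      refine isCompact_iUnion fun i => ?_
      have hcl : IsClosed {z ∈ Icc 0 T ×ˢ I | b z.1 ≤ u i z.1 z.2} :=
        (hcomp.isClosed).isClosed_le (hbc.comp continuous_fst).continuousOn (hc i)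
      exact hcomp.of_isClosed_subset hcl (fun z hz => hz.1)
    have hKne : K.Nonempty := ⟨(t₁, x₁), ⟨ht₁, hx₁⟩, i₁, hcon⟩
    obtain ⟨⟨t₀, x₀⟩, hz₀, hmin⟩ := hKc.exists_isMinOn hKne continuous_fst.continuousOn
    obtain ⟨⟨ht₀, hx₀⟩, i₀, hi₀⟩ := hz₀
    simp only at ht₀ hx₀ hi₀
    have hbefore : ∀ s ∈ Icc 0 T, s < t₀ → ∀ j, ∀ y ∈ I, u j s y < b s := by
      intro s hs hst j y hy
      by_contra hcon2
      push Not at hcon2
      have := hmin (⟨⟨hs, hy⟩, j, hcon2⟩ : ((s, y) : ℝ × ℝ) ∈ K)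
      simp only [mem_ofPred_eq] at this
      linarith only [hst, this]
    have ht₀pos : 0 < t₀ := by
      rcases eq_or_lt_of_le ht₀.1 with h | h
      · exfalso
        rw [← h] at hi₀
        have := h0 i₀ x₀ hx₀
        simp only [hb, mul_zero, Real.exp_zero, mul_one] at hi₀
        linarith only [hε, this, hi₀]
      · exact h
    have hle : ∀ j, ∀ y ∈ I, u j t₀ y ≤ b t₀ := by
      intro j y hy
      have hct : ContinuousWithinAt (fun s => u j s y) (Icc 0 T) t₀ :=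
        (hd j t₀ ht₀ y hy).continuousWithinAt
      have : NeBot (𝓝[Ico 0 t₀] t₀) := right_nhdsWithin_Ico_neBot ht₀pos
      have hsub : Ico 0 t₀ ⊆ Icc 0 T := fun s hs => ⟨hs.1, hs.2.le.trans ht₀.2⟩
      have h1 := (hct.mono hsub)
      have h2 : Tendsto b (𝓝[Ico 0 t₀] t₀) (𝓝 (b t₀)) := hbc.continuousAt.tendsto.mono_left inf_le_left
      refine le_of_tendsto_of_tendsto h1 h2 ?_
      filter_upwards [self_mem_nhdsWithin] with s hs
      exact (hbefore s (hsub hs) hs.2 j y hy).le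
    have heq : u i₀ t₀ x₀ = b t₀ := le_antisymm (hle i₀ x₀ hx₀) hi₀
    have hkey := key i₀ t₀ ⟨ht₀pos, ht₀.2⟩ x₀ hx₀ (by rw [heq]; exact hbpos _)
      (fun j y hy => by rw [heq]; exact hle j y hy)
      (fun s hs j y hy => by
        rw [heq]
        rcases eq_or_lt_of_le hs.2 with h | h
        · rw [h]; exact hle j y hy
        · exact ((hbefore s ⟨hs.1, hs.2.trans ht₀.2⟩ h j y hy).le).trans (hbmono _ _ hs.2))
    have hbd : HasDerivAt b ((C + ε) * b t₀) t₀ := by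
      have h1 : HasDerivAt (fun t : ℝ => (C + ε) * t) (C + ε) t₀ := by
        simpa using (hasDerivAt_id t₀).const_mul (C + ε)
      have h2 := (h1.exp).const_mul (B + ε)
      refine h2.congr_deriv ?_
      show _ = (C + ε) * ((B + ε) * Real.exp ((C + ε) * t₀))
      ring
    have hdd : HasDerivWithinAt (fun s => u i₀ s x₀ - b s) (ut i₀ t₀ x₀ - (C + ε) * b t₀)
        (Icc 0 t₀) t₀ :=
      ((hd i₀ t₀ ht₀ x₀ hx₀).mono (Icc_subset_Icc_right ht₀.2)).sub hbd.hasDerivWithinAt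
    have := deriv_nonneg_left ht₀pos hdd (fun s hs => by
      have := hbefore s ⟨hs.1, hs.2.le.trans ht₀.2⟩ hs.2 i₀ x₀ hx₀
      rw [heq]; linarith only [this])
    rw [heq] at hkey
    nlinarith only [hε, hbpos, hkey, this, hbpos t₀]
  have hcont : Tendsto (fun ε : ℝ => (B + ε) * Real.exp ((C + ε) * t₁)) (𝓝[>] 0)
      (𝓝 ((B + 0) * Real.exp ((C + 0) * t₁))) := by
    apply Tendsto.mono_left _ inf_le_left
    have : Continuous (fun ε : ℝ => (B + ε) * Real.exp ((C + ε) * t₁)) := by fun_prop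
    exact this.tendsto 0
  rw [add_zero, add_zero] at hcont
  refine ge_of_tendsto hcont ?_
  filter_upwards [self_mem_nhdsWithin] with ε hε
  exact (hmain ε hε).le

end Vale.Agent.P244.L
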