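import Vale.Agent.P244.L.Basic

/-!
# P244-L : jointly smooth functions on `[0,T) × [-1,1]`
-/

open Set Filter Topology
open scoped ContDiff

namespace Vale.Agent.P244.L

open Vale.Agent.P244.ST

/-- The strip. -/
abbrev Str (T : ℝ) : Set (ℝ × ℝ) := Ico 0 T ×ˢ I

/-- Jointly smooth functions. -/
def JS (T : ℝ) (u : ℝ → ℝ → ℝ) : Prop := ContDiffOn ℝ ∞ (fun z : ℝ × ℝ => u z.1 z.2) (Str T)

theorem uStr (T : ℝ) : UniqueDiffOn ℝ (Str T) := (uniqueDiffOn_Ico 0 T).prod uI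

theorem JS.slice {T : ℝ} {u : ℝ → ℝ → ℝ} (h : JS T u) {t : ℝ} (ht : t ∈ Ico 0 T) : Sm (u t) := by
  have : ContDiffOn ℝ ∞ (fun x : ℝ => ((t, x) : ℝ × ℝ)) I := by fun_prop
  exact ContDiffOn.comp (g := fun z : ℝ × ℝ => u z.1 z.2) h this (fun x hx => ⟨ht, hx⟩)

section
variable {T : ℝ} {U : ℝ × ℝ → ℝ}

private theorem hasDeriv_x (h : DifferentiableOn ℝ U (Str T)) {t x : ℝ} (ht : t ∈ Ico 0 T)
    (hx : x ∈ I) :
    HasDerivWithinAt (fun y => U (t, y)) (fderivWithin ℝ U (Str T) (t, x) (0, 1)) I x := by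
  have h1 : HasFDerivWithinAt U (fderivWithin ℝ U (Str T) (t, x)) (Str T) (t, x) :=
    (h (t, x) ⟨ht, hx⟩).hasFDerivWithinAt
  have h2 : HasDerivWithinAt (fun y : ℝ => ((t, y) : ℝ × ℝ)) ((0, 1) : ℝ × ℝ) I x :=
    (hasDerivWithinAt_const x I t).prodMk (hasDerivWithinAt_id x I)
  exact h1.comp_hasDerivWithinAt x h2 (fun y hy => ⟨ht, hy⟩)

private theorem hasDeriv_t (h : DifferentiableOn ℝ U (Str T)) {t x : ℝ} (ht : t ∈ Ico 0 T)
    (hx : x ∈ I) :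
    HasDerivWithinAt (fun s => U (s, x)) (fderivWithin ℝ U (Str T) (t, x) (1, 0)) (Ico 0 T) t := by
  have h1 : HasFDerivWithinAt U (fderivWithin ℝ U (Str T) (t, x)) (Str T) (t, x) :=
    (h (t, x) ⟨ht, hx⟩).hasFDerivWithinAt
  have h2 : HasDerivWithinAt (fun s : ℝ => ((s, x) : ℝ × ℝ)) ((1, 0) : ℝ × ℝ) (Ico 0 T) t :=
    (hasDerivWithinAt_id t _).prodMk (hasDerivWithinAt_const t _ x)
  exact h1.comp_hasDerivWithinAt t h2 (fun s hs => (⟨hs, hx⟩ : ((s, x) : ℝ × ℝ) ∈ Str T))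

private theorem dx_fd (h : DifferentiableOn ℝ U (Str T)) {t x : ℝ} (ht : t ∈ Ico 0 T)
    (hx : x ∈ I) : dx (fun y => U (t, y)) x = fderivWithin ℝ U (Str T) (t, x) (0, 1) :=
  dx_eq hx (hasDeriv_x h ht hx)

end

theorem JS.dx {T : ℝ} {u : ℝ → ℝ → ℝ} (h : JS T u) : JS T (fun t => dx (u t)) := by
  have h1 : ContDiffOn ℝ ∞ (fderivWithin ℝ (fun z : ℝ × ℝ => u z.1 z.2) (Str T)) (Str T) :=
    ContDiffOn.fderivWithin h (uStr T) (by simp)
  have h2 := h1.clm_apply (contDiffOn_const (c := ((0, 1) : ℝ × ℝ)))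
  refine ContDiffOn.congr h2 ?_
  rintro ⟨t, x⟩ ⟨ht, hx⟩
  exact dx_fd (U := fun z : ℝ × ℝ => u z.1 z.2) (h.differentiableOn (by simp)) ht hx

/-- If `u` is jointly smooth and `u_t = g` on the strip, then `g` is jointly smooth. -/
theorem JS.dt {T : ℝ} {u g : ℝ → ℝ → ℝ} (h : JS T u)
    (hg : ∀ t ∈ Ico 0 T, ∀ x ∈ I, HasDerivWithinAt (fun s => u s x) (g t x) (Ico 0 T) t) :
    JS T g := by
  have h1 : ContDiffOn ℝ ∞ (fderivWithin ℝ (fun z : ℝ × ℝ => u z.1 z.2) (Str T)) (Str T) :=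
    ContDiffOn.fderivWithin h (uStr T) (by simp)
  have h2 := h1.clm_apply (contDiffOn_const (c := ((1, 0) : ℝ × ℝ)))
  refine ContDiffOn.congr h2 ?_
  rintro ⟨t, x⟩ ⟨ht, hx⟩
  have h3 := hasDeriv_t (U := fun z : ℝ × ℝ => u z.1 z.2) (h.differentiableOn (by simp)) ht hx
  exact ((hg t ht x hx).derivWithin (uniqueDiffOn_Ico 0 T t ht)).symm.trans
    (h3.derivWithin (uniqueDiffOn_Ico 0 T t ht))

/-- Time derivative and `x` derivative commute. -/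
theorem JS.dx_dt {T : ℝ} {u g : ℝ → ℝ → ℝ} (h : JS T u)
    (hg : ∀ t ∈ Ico 0 T, ∀ x ∈ I, HasDerivWithinAt (fun s => u s x) (g t x) (Ico 0 T) t)
    {t x : ℝ} (ht : t ∈ Ico 0 T) (hx : x ∈ I) :
    HasDerivWithinAt (fun s => ST.dx (u s) x) (ST.dx (g t) x) (Ico 0 T) t := by
  set U : ℝ × ℝ → ℝ := fun z => u z.1 z.2 with hU
  set S := Str T with hS
  have hUS : UniqueDiffOn ℝ S := uStr T
  have hd : DifferentiableOn ℝ U S := h.differentiableOn (by simp)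
  have h1 : ContDiffOn ℝ ∞ (fderivWithin ℝ U S) S := ContDiffOn.fderivWithin h hUS (by simp)
  have hd1 : DifferentiableOn ℝ (fderivWithin ℝ U S) S := h1.differentiableOn (by simp)
  have key : ∀ v : ℝ × ℝ, HasFDerivWithinAt (fun z => fderivWithin ℝ U S z v)
      ((fderivWithin ℝ (fderivWithin ℝ U S) S (t, x)).flip v) S (t, x) := by
    intro v
    exact (ContinuousLinearMap.apply ℝ ℝ v).hasFDerivAt.comp_hasFDerivWithinAt _
      ((hd1 (t, x) ⟨ht, hx⟩).hasFDerivWithinAt)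
  -- the `x` derivative as function of time
  have hA : HasDerivWithinAt (fun s => fderivWithin ℝ U S (s, x) (0, 1))
      (fderivWithin ℝ (fderivWithin ℝ U S) S (t, x) (1, 0) (0, 1)) (Ico 0 T) t := by
    have h2 : HasDerivWithinAt (fun s : ℝ => ((s, x) : ℝ × ℝ)) ((1, 0) : ℝ × ℝ) (Ico 0 T) t :=
      (hasDerivWithinAt_id t _).prodMk (hasDerivWithinAt_const t _ x)
    exact (key (0, 1)).comp_hasDerivWithinAt t h2 (fun s hs => (⟨hs, hx⟩ : ((s, x) : ℝ × ℝ) ∈ S))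
  have hB : HasDerivWithinAt (fun y => fderivWithin ℝ U S (t, y) (1, 0))
      (fderivWithin ℝ (fderivWithin ℝ U S) S (t, x) (0, 1) (1, 0)) I x := by
    have h2 : HasDerivWithinAt (fun y : ℝ => ((t, y) : ℝ × ℝ)) ((0, 1) : ℝ × ℝ) I x :=
      (hasDerivWithinAt_const x I t).prodMk (hasDerivWithinAt_id x I)
    exact (key (1, 0)).comp_hasDerivWithinAt x h2 (fun y hy => ⟨ht, hy⟩)
  have hsymm : IsSymmSndFDerivWithinAt ℝ U S (t, x) := by
    have hT : 0 < T := lt_of_le_of_lt ht.1 ht.2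
    refine ContDiffWithinAt.isSymmSndFDerivWithinAt (n := ∞) (h (t, x) ⟨ht, hx⟩)
      (by
        simp only [minSmoothness_of_isRCLikeNormedField]
        exact ENat.LEInfty.out) hUS ?_
      ⟨ht, hx⟩
    rw [hS, interior_prod_eq, interior_Ico, interior_Icc, closure_prod_eq,
      closure_Ioo hT.ne, closure_Ioo (by norm_num)]
    exact ⟨⟨ht.1, ht.2.le⟩, hx⟩
  have e1 : ∀ s ∈ Ico 0 T, ST.dx (u s) x = fderivWithin ℝ U S (s, x) (0, 1) := fun s hs =>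
    dx_fd (U := U) hd hs hx
  have e2 : ∀ y ∈ I, g t y = fderivWithin ℝ U S (t, y) (1, 0) := by
    intro y hy
    exact ((hg t ht y hy).derivWithin (uniqueDiffOn_Ico 0 T t ht)).symm.trans
      ((hasDeriv_t (U := U) hd ht hy).derivWithin (uniqueDiffOn_Ico 0 T t ht))
  have e3 : ST.dx (g t) x = fderivWithin ℝ (fderivWithin ℝ U S) S (t, x) (0, 1) (1, 0) := by
    rw [dx_congr e2 hx]
    exact dx_eq hx hB
  rw [e3, hsymm.eq (0, 1) (1, 0)]
  exact hA.congr e1 (e1 t ht)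

end Vale.Agent.P244.L
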