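import Vale.Agent.P244.L.DPoly
import Vale.Agent.P244.L.Strip
import Vale.Agent.P244.L.MP

/-!
# P244-L : the difference estimate (all orders `j ≥ 1`) and uniqueness
-/

open Set Filter Topology
open scoped ContDiff

namespace Vale.Agent.P244.LW
open Vale.Agent.P244.ST

theorem Ld_sub {d : ℝ} {u v : ℝ → ℝ} (hu : Sm u) (hv : Sm v) {x : ℝ}
    (hx : x ∈ Icc (-1 : ℝ) 1) : Ld d (fun y => u y - v y) x = Ld d u x - Ld d v x := by
  unfold Ld
  rw [dx_congr (fun y hy => dx_sub hu hv hy) hx, dx_sub hu.dx hv.dx hx, dx_sub hu hv hx]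
  ring

theorem Ld_abs_le {d K : ℝ} {u : ℝ → ℝ} {x : ℝ} (hx : x ∈ Icc (-1 : ℝ) 1)
    (h1 : |dx u x| ≤ K) (h2 : |dx (dx u) x| ≤ K) : |Ld d u x| ≤ (1 + |d|) * K := by
  have hK : 0 ≤ K := (abs_nonneg _).trans h1
  have h3 : |1 - x ^ 2| ≤ 1 := by
    rw [abs_le]; constructor <;> nlinarith only [hx, hx.1, hx.2]
  have h4 : |x| ≤ 1 := abs_le.2 hx
  unfold Ld
  refine (abs_sub _ _).trans ?_
  rw [abs_mul, abs_mul, abs_mul]
  have h5 : |1 - x ^ 2| * |dx (dx u) x| ≤ 1 * K := mul_le_mul h3 h2 (abs_nonneg _) zero_le_one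
  have h6 : |d| * |x| * |dx u x| ≤ |d| * 1 * K :=
    mul_le_mul (mul_le_mul_of_nonneg_left h4 (abs_nonneg _)) h1 (abs_nonneg _) (by positivity)
  calc _ ≤ 1 * K + |d| * 1 * K := add_le_add h5 h6
    _ = (1 + |d|) * K := by ring

/-- The estimate of the time derivative of `σ D^i (U w' f' - U w f)` at a spatial maximum. -/
theorem point_est (p j i : ℕ) (hj : 1 ≤ j) (hij : i ≤ j) (K : ℝ)
    (U R : (ℝ → ℝ) → (ℝ → ℝ) → ℝ → ℝ)
    (hUs : ∀ w f : ℝ → ℝ, Sm w → Sm f → Sm (U w f))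
    (hUB : ∀ (k : ℕ) (w f : ℝ → ℝ), Bd k K w → Bd k K f → Bd k K (U w f))
    (hexp : ∃ P, DP p true i P ∧ ∀ w f : ℝ → ℝ, Sm w → Sm f → ∀ x ∈ Icc (-1 : ℝ) 1,
      dn i (R w f) x = Real.exp (-2 * w x) * Ld ((p : ℝ) + 1 + 2 * i) (dn i (U w f)) x +
        (1 - x ^ 2) * dn (i + 1) (U w f) x * BB p i w f x + P w f x) :
    ∃ C : ℝ, 0 ≤ C ∧ ∀ w f w' f' : ℝ → ℝ, Sm w → Sm f → Sm w' → Sm f' →
      Bd (j + 2) K w → Bd (j + 2) K f → Bd j K w' → Bd j K f' →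
      ∀ N : ℝ, (∀ k ≤ j, ∀ x ∈ Icc (-1 : ℝ) 1, |dn k w' x - dn k w x| ≤ N) →
      (∀ k ≤ j, ∀ x ∈ Icc (-1 : ℝ) 1, |dn k f' x - dn k f x| ≤ N) →
      ∀ σ : ℝ, |σ| = 1 → ∀ x ∈ Icc (-1 : ℝ) 1,
      (∀ y ∈ Icc (-1 : ℝ) 1, σ * (dn i (U w' f') y - dn i (U w f) y) ≤
        σ * (dn i (U w' f') x - dn i (U w f) x)) →
      σ * (dn i (R w' f') x - dn i (R w f) x) ≤ C * N := by
  obtain ⟨P, hP, hPe⟩ := hexp
  obtain ⟨M1, hM1, -, l1⟩ := (hP.mono hij).bl hj K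
  obtain ⟨M2, hM2, -, l2⟩ := (DP.bb p i hj).bl hj K
  obtain ⟨M3, hM3, -, l3⟩ := (DP.ew (p := p) true j).bl hj K
  set d : ℝ := (p : ℝ) + 1 + 2 * i with hd
  have hd0 : 0 ≤ d := by positivity
  refine ⟨M3 * ((1 + |d|) * |K|) + |K| * M2 + M1, by positivity, ?_⟩
  intro w f w' f' hw hf hw' hf' b1 b2 b3 b4 N n1 n2 σ hσ x hx hmax
  have hN : 0 ≤ N := (abs_nonneg _).trans (n1 0 (Nat.zero_le _) x hx)
  have b1' : Bd j K w := b1.le_idx (by omega)
  have b2' : Bd j K f := b2.le_idx (by omega)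
  have hK : 0 ≤ K := b1'.nonneg
  have hu := hUs w f hw hf
  have hu' := hUs w' f' hw' hf'
  have bu := hUB (j + 2) w f b1 b2
  -- the difference at its maximum
  have hS : Sm (fun y => σ * (dn i (U w' f') y - dn i (U w f) y)) :=
    ((hu'.dn i).sub (hu.dn i)).cmul σ
  obtain ⟨g1, g2⟩ := max_pt hS hx hmax
  have g2 := g2 d hd0
  have hσ0 : σ ≠ 0 := by
    intro h; rw [h, abs_zero] at hσ; exact zero_ne_one hσ
  rw [dx_cmul σ ((hu'.dn i).sub (hu.dn i)) hx, dx_sub (hu'.dn i) (hu.dn i) hx, ← dn_succ',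
    ← dn_succ'] at g1
  have g1' : (1 - x ^ 2) * dn (i + 1) (U w' f') x = (1 - x ^ 2) * dn (i + 1) (U w f) x := by
    have h1 : σ * ((1 - x ^ 2) * (dn (i + 1) (U w' f') x - dn (i + 1) (U w f) x)) = 0 := by
      rw [← g1]; ring
    have h2 := (mul_eq_zero.1 h1).resolve_left hσ0
    linarith only [h2]
  have g2' : σ * (Ld d (dn i (U w' f')) x - Ld d (dn i (U w f)) x) ≤ 0 := by
    have h1 : Ld d (fun y => σ * (dn i (U w' f') y - dn i (U w f) y)) x =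
        σ * (Ld d (dn i (U w' f')) x - Ld d (dn i (U w f)) x) := by
      rw [← Ld_sub (hu'.dn i) (hu.dn i) hx]
      unfold Ld
      rw [dx_congr (fun y hy => dx_cmul σ ((hu'.dn i).sub (hu.dn i)) hy) hx,
        dx_cmul σ ((hu'.dn i).sub (hu.dn i)).dx hx, dx_cmul σ ((hu'.dn i).sub (hu.dn i)) hx]
      ring
    rwa [h1] at g2
  have hLd : |Ld d (dn i (U w f)) x| ≤ (1 + |d|) * |K| := by
    rw [abs_of_nonneg hK]
    apply Ld_abs_le hx
    · rw [← dn_succ']; exact bu (i + 1) (by omega) x hx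
    · rw [← dn_succ', ← dn_succ']; exact bu (i + 1 + 1) (by omega) x hx
  have hUi : |(1 - x ^ 2) * dn (i + 1) (U w f) x| ≤ |K| := by
    rw [abs_of_nonneg hK, abs_mul]
    have h3 : |1 - x ^ 2| ≤ 1 := by
      rw [abs_le]; constructor <;> nlinarith only [hx, hx.1, hx.2]
    have h4 := mul_le_mul h3 (bu (i + 1) (by omega) x hx) (abs_nonneg _) zero_le_one
    rwa [one_mul] at h4
  rw [hPe w' f' hw' hf' x hx, hPe w f hw hf x hx, g1']
  have e : σ * (Real.exp (-2 * w' x) * Ld d (dn i (U w' f')) x +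
      (1 - x ^ 2) * dn (i + 1) (U w f) x * BB p i w' f' x + P w' f' x -
      (Real.exp (-2 * w x) * Ld d (dn i (U w f)) x +
      (1 - x ^ 2) * dn (i + 1) (U w f) x * BB p i w f x + P w f x)) =
      Real.exp (-2 * w' x) * (σ * (Ld d (dn i (U w' f')) x - Ld d (dn i (U w f)) x)) +
      (σ * ((Real.exp (-2 * w' x) - Real.exp (-2 * w x)) * Ld d (dn i (U w f)) x) +
      σ * ((1 - x ^ 2) * dn (i + 1) (U w f) x * (BB p i w' f' x - BB p i w f x)) +
      σ * (P w' f' x - P w f x)) := by ring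
  rw [e]
  have t1 : Real.exp (-2 * w' x) * (σ * (Ld d (dn i (U w' f')) x - Ld d (dn i (U w f)) x)) ≤ 0 :=
    mul_nonpos_of_nonneg_of_nonpos (Real.exp_pos _).le g2'
  have hσa : ∀ a : ℝ, σ * a ≤ |a| := fun a => by
    calc σ * a ≤ |σ * a| := le_abs_self _
      _ = |a| := by rw [abs_mul, hσ, one_mul]
  have t2 : σ * ((Real.exp (-2 * w' x) - Real.exp (-2 * w x)) * Ld d (dn i (U w f)) x) ≤
      M3 * N * ((1 + |d|) * |K|) := by
    refine (hσa _).trans ?_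
    rw [abs_mul]
    exact mul_le_mul (l3 w f w' f' hw hf hw' hf' b1' b2' b3 b4 N n1 n2 x hx) hLd (abs_nonneg _)
      (mul_nonneg hM3 hN)
  have t3 : σ * ((1 - x ^ 2) * dn (i + 1) (U w f) x * (BB p i w' f' x - BB p i w f x)) ≤
      |K| * (M2 * N) := by
    refine (hσa _).trans ?_
    rw [abs_mul]
    exact mul_le_mul hUi (l2 w f w' f' hw hf hw' hf' b1' b2' b3 b4 N n1 n2 x hx) (abs_nonneg _)
      (abs_nonneg _)
  have t4 : σ * (P w' f' x - P w f x) ≤ M1 * N :=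
    (hσa _).trans (l1 w f w' f' hw hf hw' hf' b1' b2' b3 b4 N n1 n2 x hx)
  calc _ ≤ 0 + (M3 * N * ((1 + |d|) * |K|) + |K| * (M2 * N) + M1 * N) := by linarith only [t1, t2, t3, t4]
    _ = (M3 * ((1 + |d|) * |K|) + |K| * M2 + M1) * N := by ring

/-! ### time derivatives -/

theorem js_dn {T : ℝ} {u : ℝ → ℝ → ℝ} (h : L.JS T u) (i : ℕ) : L.JS T (fun t => dn i (u t)) := by
  induction i with
  | zero => exact h
  | succ i ih =>
    have h1 := ih.dx
    simpa only [dn_succ'] using h1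

theorem dt_dn {T : ℝ} {u g : ℝ → ℝ → ℝ} (h : L.JS T u)
    (hg : ∀ t ∈ Ico 0 T, ∀ x ∈ Icc (-1 : ℝ) 1,
      HasDerivWithinAt (fun s => u s x) (g t x) (Ico 0 T) t) (i : ℕ) :
    ∀ t ∈ Ico 0 T, ∀ x ∈ Icc (-1 : ℝ) 1,
      HasDerivWithinAt (fun s => dn i (u s) x) (dn i (g t) x) (Ico 0 T) t := by
  induction i with
  | zero => exact hg
  | succ i ih =>
    intro t ht x hx
    have h1 := (js_dn h i).dx_dt (g := fun t => dn i (g t)) ih ht hx
    simpa only [dn_succ'] using h1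

theorem js_cont {T T₁ : ℝ} (hT : T₁ < T) {u : ℝ → ℝ → ℝ} (h : L.JS T u) :
    ContinuousOn (fun z : ℝ × ℝ => u z.1 z.2) (Icc 0 T₁ ×ˢ Icc (-1) 1) :=
  ContinuousOn.mono (ContDiffOn.continuousOn h) fun _ hz => ⟨⟨hz.1.1, hz.1.2.trans_lt hT⟩, hz.2⟩

theorem js_sm {T : ℝ} {u : ℝ → ℝ → ℝ} (h : L.JS T u) {t : ℝ} (ht : t ∈ Ico 0 T) : Sm (u t) :=
  h.slice ht

/-! ### the difference estimate -/

/-- THE DIFFERENCE ESTIMATE (order `j ≥ 1`): the reference solution is bounded in `C^{j+2}`, the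
other one only in `C^j`. -/
theorem diff_est (p j : ℕ) (hj : 1 ≤ j) (K : ℝ) : ∃ C : ℝ, 0 ≤ C ∧
    ∀ (T T' T₁ : ℝ) (w f w' f' : ℝ → ℝ → ℝ), ConfSol p w f T → ConfSol p w' f' T' →
    T₁ < T → T₁ < T' →
    (∀ t ∈ Icc 0 T₁, Bd (j + 2) K (w t) ∧ Bd (j + 2) K (f t) ∧ Bd j K (w' t) ∧ Bd j K (f' t)) →
    ∀ B : ℝ, 0 ≤ B →
    (∀ i ≤ j, ∀ x ∈ Icc (-1 : ℝ) 1, |dn i (w' 0) x - dn i (w 0) x| ≤ B ∧
      |dn i (f' 0) x - dn i (f 0) x| ≤ B) →
    ∀ t ∈ Icc 0 T₁, ∀ i ≤ j, ∀ x ∈ Icc (-1 : ℝ) 1,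
      |dn i (w' t) x - dn i (w t) x| ≤ B * Real.exp (C * t) ∧
      |dn i (f' t) x - dn i (f t) x| ≤ B * Real.exp (C * t) := by
  have hCw : ∀ i : Fin (j + 1), _ := fun i => point_est p j i hj (by omega) K
    (fun w _ => w) (fun w f => rhsW p w f) (fun w f hw _ => hw) (fun k w f h _ => h)
    (exp_rhsW p i)
  have hCf : ∀ i : Fin (j + 1), _ := fun i => point_est p j i hj (by omega) K
    (fun _ f => f) (fun w f => rhsF p w f) (fun w f _ hf => hf) (fun k w f _ h => h)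
    (exp_rhsF p i)
  choose Cw hCw0 hCw using hCw
  choose Cf hCf0 hCf using hCf
  set C : ℝ := ∑ i, Cw i + ∑ i, Cf i with hCdef
  have hC : 0 ≤ C := add_nonneg (Finset.sum_nonneg fun i _ => hCw0 i)
    (Finset.sum_nonneg fun i _ => hCf0 i)
  have hCwle : ∀ i, Cw i ≤ C := fun i => by
    have h1 : Cw i ≤ ∑ i, Cw i := Finset.single_le_sum (fun i _ => hCw0 i) (Finset.mem_univ i)
    have h2 : 0 ≤ ∑ i, Cf i := Finset.sum_nonneg fun i _ => hCf0 i
    linarith only [h1, h2]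
  have hCfle : ∀ i, Cf i ≤ C := fun i => by
    have h1 : Cf i ≤ ∑ i, Cf i := Finset.single_le_sum (fun i _ => hCf0 i) (Finset.mem_univ i)
    have h2 : 0 ≤ ∑ i, Cw i := Finset.sum_nonneg fun i _ => hCw0 i
    linarith only [h1, h2]
  refine ⟨C, hC, ?_⟩
  intro T T' T₁ w f w' f' hS hS' hT hT' hb B hB h0
  have jw : L.JS T w := hS.smooth_w
  have jf : L.JS T f := hS.smooth_f
  have jw' : L.JS T' w' := hS'.smooth_w
  have jf' : L.JS T' f' := hS'.smooth_f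
  -- the family
  let sg : Bool → ℝ := fun b => if b then 1 else -1
  have hsg : ∀ b, |sg b| = 1 := fun b => by cases b <;> simp [sg]
  let V : Bool → ℕ → ℝ → ℝ → ℝ := fun b i t x =>
    if b then dn i (w' t) x - dn i (w t) x else dn i (f' t) x - dn i (f t) x
  let Vt : Bool → ℕ → ℝ → ℝ → ℝ := fun b i t x =>
    if b then dn i (rhsW p (w' t) (f' t)) x - dn i (rhsW p (w t) (f t)) x
    else dn i (rhsF p (w' t) (f' t)) x - dn i (rhsF p (w t) (f t)) x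
  have key := L.gron (ι := Fin (j + 1) × Bool × Bool) (T := T₁)
    (fun i t x => sg i.2.2 * V i.2.1 i.1 t x) (fun i t x => sg i.2.2 * Vt i.2.1 i.1 t x)
    (fun i => by
      refine continuousOn_const.mul ?_
      rcases i with ⟨i, b, s⟩
      cases b
      · exact (js_cont hT' (js_dn jf' i)).sub (js_cont hT (js_dn jf i))
      · exact (js_cont hT' (js_dn jw' i)).sub (js_cont hT (js_dn jw i)))
    (fun i t ht x hx => by
      rcases i with ⟨i, b, s⟩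
      have m1 : Icc 0 T₁ ⊆ Ico 0 T := fun r hr => ⟨hr.1, hr.2.trans_lt hT⟩
      have m2 : Icc 0 T₁ ⊆ Ico 0 T' := fun r hr => ⟨hr.1, hr.2.trans_lt hT'⟩
      refine HasDerivWithinAt.const_mul _ ?_
      cases b
      · exact ((dt_dn jf' hS'.eq_f i t (m2 ht) x hx).mono m2).sub
          ((dt_dn jf hS.eq_f i t (m1 ht) x hx).mono m1)
      · exact ((dt_dn jw' hS'.eq_w i t (m2 ht) x hx).mono m2).sub
          ((dt_dn jw hS.eq_w i t (m1 ht) x hx).mono m1))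
    hC hB
    (fun i x hx => by
      rcases i with ⟨i, b, s⟩
      have hi : (i : ℕ) ≤ j := by omega
      have h1 : |V b i 0 x| ≤ B := by
        cases b
        · exact (h0 i hi x hx).2
        · exact (h0 i hi x hx).1
      calc sg s * V b i 0 x ≤ |sg s * V b i 0 x| := le_abs_self _
        _ = |V b i 0 x| := by rw [abs_mul, hsg, one_mul]
        _ ≤ B := h1)
    (fun i t ht x hx hpos hmax _ => by
      rcases i with ⟨i, b, s⟩
      have ht' : t ∈ Icc 0 T₁ := ⟨ht.1.le, ht.2⟩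
      obtain ⟨c1, c2, c3, c4⟩ := hb t ht'
      have hi : (i : ℕ) ≤ j := by omega
      set N : ℝ := sg s * V b i t x with hN
      have hall : ∀ (b' : Bool) (k : ℕ), k ≤ j → ∀ y ∈ Icc (-1 : ℝ) 1, |V b' k t y| ≤ N := by
        intro b' k hk y hy
        rw [abs_le]
        have h1 := hmax ⟨⟨k, by omega⟩, b', true⟩ y hy
        have h2 := hmax ⟨⟨k, by omega⟩, b', false⟩ y hy
        simp only [sg, if_true, one_mul, Bool.false_eq_true, if_false, neg_one_mul] at h1 h2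
        constructor
        · linarith only [h2]
        · exact h1
      have n1 : ∀ k ≤ j, ∀ y ∈ Icc (-1 : ℝ) 1, |dn k (w' t) y - dn k (w t) y| ≤ N :=
        fun k hk y hy => hall true k hk y hy
      have n2 : ∀ k ≤ j, ∀ y ∈ Icc (-1 : ℝ) 1, |dn k (f' t) y - dn k (f t) y| ≤ N :=
        fun k hk y hy => hall false k hk y hy
      have hN0 : 0 ≤ N := hpos.le
      have sw := js_sm jw ⟨ht'.1, ht'.2.trans_lt hT⟩
      have sf := js_sm jf ⟨ht'.1, ht'.2.trans_lt hT⟩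
      have sw' := js_sm jw' ⟨ht'.1, ht'.2.trans_lt hT'⟩
      have sf' := js_sm jf' ⟨ht'.1, ht'.2.trans_lt hT'⟩
      cases b
      · have h3 := hCf i (w t) (f t) (w' t) (f' t) sw sf sw' sf' c1 c2 c3 c4 N n1 n2 (sg s)
          (hsg s) x hx (fun y hy => hmax ⟨i, false, s⟩ y hy)
        exact h3.trans (mul_le_mul_of_nonneg_right (hCfle i) hN0)
      · have h3 := hCw i (w t) (f t) (w' t) (f' t) sw sf sw' sf' c1 c2 c3 c4 N n1 n2 (sg s)
          (hsg s) x hx (fun y hy => hmax ⟨i, true, s⟩ y hy)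
        exact h3.trans (mul_le_mul_of_nonneg_right (hCwle i) hN0))
  intro t ht i hi x hx
  have hfin : ∀ b : Bool, |V b i t x| ≤ B * Real.exp (C * t) := by
    intro b
    have h1 := key ⟨⟨i, by omega⟩, b, true⟩ t ht x hx
    have h2 := key ⟨⟨i, by omega⟩, b, false⟩ t ht x hx
    simp only [sg, if_true, one_mul, Bool.false_eq_true, if_false, neg_one_mul] at h1 h2
    rw [abs_le]
    constructor
    · linarith only [h2]
    · exact h1
  exact ⟨hfin true, hfin false⟩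

end Vale.Agent.P244.LW
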