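import Vale.Agent.P244.L.Stmts

/-!
# P244-L block H1 : maximal solution and continuation criterion
-/

open Set Filter Topology
open scoped ContDiff

namespace Vale.Agent.P244.LW
open Vale.Agent.P244.ST

section congr
variable {w f w' f' : ℝ → ℝ}

theorem uIcc_sub_I {x : ℝ} (hx : x ∈ Icc (-1 : ℝ) 1) : uIcc 0 x ⊆ Icc (-1 : ℝ) 1 := by
  intro z hz
  rcases le_total 0 x with h | h
  · rw [uIcc_of_le h] at hz; exact ⟨by linarith only [hz, hz.1], hz.2.trans hx.2⟩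
  · rw [uIcc_of_ge h] at hz; exact ⟨hx.1.trans hz.1, by linarith only [hz, hz.2]⟩

theorem Jd_congr (p : ℕ) (hw : ∀ x ∈ Icc (-1 : ℝ) 1, w x = w' x)
    (hf : ∀ x ∈ Icc (-1 : ℝ) 1, f x = f' x) {x : ℝ} (hx : x ∈ Icc (-1 : ℝ) 1) :
    Jd p w f x = Jd p w' f' x := by
  unfold Jd; rw [hw x hx, dx_congr hw hx, dx_congr hf hx]

theorem Jf_congr (p : ℕ) (hw : ∀ x ∈ Icc (-1 : ℝ) 1, w x = w' x)
    (hf : ∀ x ∈ Icc (-1 : ℝ) 1, f x = f' x) {x : ℝ} (hx : x ∈ Icc (-1 : ℝ) 1) :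
    Jf p w f x = Jf p w' f' x := by
  unfold Jf
  exact intervalIntegral.integral_congr (fun z hz => Jd_congr p hw hf (uIcc_sub_I hx hz))

theorem rhsW_congr (p : ℕ) (hw : ∀ x ∈ Icc (-1 : ℝ) 1, w x = w' x)
    (hf : ∀ x ∈ Icc (-1 : ℝ) 1, f x = f' x) {x : ℝ} (hx : x ∈ Icc (-1 : ℝ) 1) :
    rhsW p w f x = rhsW p w' f' x := by
  unfold rhsW
  rw [lap_eq, lap_eq, Ld_congr hw hx, Jf_congr p hw hf hx, hw x hx, dx_congr hw hx]

theorem rhsF_congr (p : ℕ) (hw : ∀ x ∈ Icc (-1 : ℝ) 1, w x = w' x)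
    (hf : ∀ x ∈ Icc (-1 : ℝ) 1, f x = f' x) {x : ℝ} (hx : x ∈ Icc (-1 : ℝ) 1) :
    rhsF p w f x = rhsF p w' f' x := by
  unfold rhsF
  rw [lap_eq, lap_eq, Ld_congr hf hx, Jf_congr p hw hf hx, hw x hx, hf x hx, dx_congr hf hx]

end congr

/-- the solution property at one time `t` of the time set `S` -/
structure PtSol (p : ℕ) (w f : ℝ → ℝ → ℝ) (S : Set ℝ) (t : ℝ) : Prop where
  sw : ∀ x ∈ Icc (-1 : ℝ) 1,
    ContDiffWithinAt ℝ ∞ (fun z : ℝ × ℝ => w z.1 z.2) (S ×ˢ Icc (-1) 1) (t, x)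
  sf : ∀ x ∈ Icc (-1 : ℝ) 1,
    ContDiffWithinAt ℝ ∞ (fun z : ℝ × ℝ => f z.1 z.2) (S ×ˢ Icc (-1) 1) (t, x)
  ew : ∀ x ∈ Icc (-1 : ℝ) 1, w t (-x) = w t x
  ef : ∀ x ∈ Icc (-1 : ℝ) 1, f t (-x) = f t x
  qw : ∀ x ∈ Icc (-1 : ℝ) 1, HasDerivWithinAt (fun s => w s x) (rhsW p (w t) (f t) x) S t
  qf : ∀ x ∈ Icc (-1 : ℝ) 1, HasDerivWithinAt (fun s => f s x) (rhsF p (w t) (f t) x) S t

theorem confSol_iff {p : ℕ} {w f : ℝ → ℝ → ℝ} {T : ℝ} :
    ConfSol p w f T ↔ ∀ t ∈ Ico 0 T, PtSol p w f (Ico 0 T) t := by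
  constructor
  · intro h t ht
    exact ⟨fun x hx => h.smooth_w (t, x) ⟨ht, hx⟩, fun x hx => h.smooth_f (t, x) ⟨ht, hx⟩,
      h.even_w t ht, h.even_f t ht, h.eq_w t ht, h.eq_f t ht⟩
  · intro h
    exact ⟨fun z hz => (h z.1 hz.1).sw z.2 hz.2, fun z hz => (h z.1 hz.1).sf z.2 hz.2,
      fun t ht => (h t ht).ew, fun t ht => (h t ht).ef, fun t ht => (h t ht).qw,
      fun t ht => (h t ht).qf⟩

theorem PtSol.congr {p : ℕ} {w f w' f' : ℝ → ℝ → ℝ} {S S' : Set ℝ} {t : ℝ}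
    (h : PtSol p w f S t) (ht' : t ∈ S')
    (hev : ∀ᶠ s in 𝓝[S'] t, s ∈ S ∧ ∀ x ∈ Icc (-1 : ℝ) 1, w' s x = w s x ∧ f' s x = f s x) :
    PtSol p w' f' S' t := by
  have h0 := hev.self_of_nhdsWithin ht'
  have hS : S ∈ 𝓝[S'] t := hev.mono (fun s hs => hs.1)
  have hSp : ∀ x ∈ Icc (-1 : ℝ) 1, S ×ˢ Icc (-1 : ℝ) 1 ∈ 𝓝[S' ×ˢ Icc (-1 : ℝ) 1] (t, x) := by
    intro x hx
    rw [nhdsWithin_prod_eq]
    exact prod_mem_prod hS self_mem_nhdsWithin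
  have hEv : ∀ x ∈ Icc (-1 : ℝ) 1, ∀ᶠ z : ℝ × ℝ in 𝓝[S' ×ˢ Icc (-1 : ℝ) 1] (t, x),
      w' z.1 z.2 = w z.1 z.2 ∧ f' z.1 z.2 = f z.1 z.2 := by
    intro x hx
    rw [nhdsWithin_prod_eq]
    filter_upwards [prod_mem_prod hev self_mem_nhdsWithin] with z hz
    exact hz.1.2 z.2 hz.2
  refine ⟨fun x hx => ?_, fun x hx => ?_, fun x hx => ?_, fun x hx => ?_, fun x hx => ?_,
    fun x hx => ?_⟩
  · exact (((h.sw x hx).mono_of_mem_nhdsWithin (hSp x hx)).congr_of_eventuallyEq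
      ((hEv x hx).mono fun z hz => hz.1) (h0.2 x hx).1)
  · exact (((h.sf x hx).mono_of_mem_nhdsWithin (hSp x hx)).congr_of_eventuallyEq
      ((hEv x hx).mono fun z hz => hz.2) (h0.2 x hx).2)
  · have hx' : -x ∈ Icc (-1 : ℝ) 1 := ⟨by linarith only [hx, hx.2], by linarith only [hx, hx.1]⟩
    rw [(h0.2 x hx).1, (h0.2 (-x) hx').1]; exact h.ew x hx
  · have hx' : -x ∈ Icc (-1 : ℝ) 1 := ⟨by linarith only [hx, hx.2], by linarith only [hx, hx.1]⟩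
    rw [(h0.2 x hx).2, (h0.2 (-x) hx').2]; exact h.ef x hx
  · have e : rhsW p (w' t) (f' t) x = rhsW p (w t) (f t) x :=
      rhsW_congr p (fun y hy => (h0.2 y hy).1) (fun y hy => (h0.2 y hy).2) hx
    rw [e]
    exact ((h.qw x hx).mono_of_mem_nhdsWithin hS).congr_of_eventuallyEq
      (hev.mono fun s hs => (hs.2 x hx).1) (h0.2 x hx).1
  · have e : rhsF p (w' t) (f' t) x = rhsF p (w t) (f t) x :=
      rhsF_congr p (fun y hy => (h0.2 y hy).1) (fun y hy => (h0.2 y hy).2) hx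
    rw [e]
    exact ((h.qf x hx).mono_of_mem_nhdsWithin hS).congr_of_eventuallyEq
      (hev.mono fun s hs => (hs.2 x hx).2) (h0.2 x hx).2

/-- time translation: `v s = w (s + c)` -/
theorem PtSol.shift {p : ℕ} {w f : ℝ → ℝ → ℝ} {S : Set ℝ} {t : ℝ} (c : ℝ)
    (h : PtSol p w f S (t + c)) :
    PtSol p (fun s => w (s + c)) (fun s => f (s + c)) ((fun s => s + c) ⁻¹' S) t := by
  have hm : MapsTo (fun z : ℝ × ℝ => ((z.1 + c, z.2) : ℝ × ℝ))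
      (((fun s => s + c) ⁻¹' S) ×ˢ Icc (-1 : ℝ) 1) (S ×ˢ Icc (-1 : ℝ) 1) :=
    fun z hz => ⟨hz.1, hz.2⟩
  have hg : ContDiff ℝ ∞ (fun z : ℝ × ℝ => ((z.1 + c, z.2) : ℝ × ℝ)) :=
    (contDiff_fst.add contDiff_const).prodMk contDiff_snd
  refine ⟨fun x hx => ?_, fun x hx => ?_, h.ew, h.ef, fun x hx => ?_, fun x hx => ?_⟩
  · exact (h.sw x hx).comp (t, x) hg.contDiffWithinAt hm
  · exact (h.sf x hx).comp (t, x) hg.contDiffWithinAt hm
  · have h1 : HasDerivWithinAt (fun s : ℝ => s + c) 1 ((fun s => s + c) ⁻¹' S) t :=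
      (hasDerivWithinAt_id t _).add_const c
    have h2 := HasDerivWithinAt.comp (h := fun s : ℝ => s + c) t (h.qw x hx) h1 (fun s hs => hs)
    exact h2.congr_deriv (mul_one _)
  · have h1 : HasDerivWithinAt (fun s : ℝ => s + c) 1 ((fun s => s + c) ⁻¹' S) t :=
      (hasDerivWithinAt_id t _).add_const c
    have h2 := HasDerivWithinAt.comp (h := fun s : ℝ => s + c) t (h.qf x hx) h1 (fun s hs => hs)
    exact h2.congr_deriv (mul_one _)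

theorem ConfSol_restrict {p : ℕ} {w f : ℝ → ℝ → ℝ} {T T' : ℝ} (h : ConfSol p w f T)
    (hT : T' ≤ T) : ConfSol p w f T' := by
  rw [confSol_iff] at h ⊢
  intro t ht
  refine (h t ⟨ht.1, ht.2.trans_le hT⟩).congr ht ?_
  filter_upwards [self_mem_nhdsWithin] with s hs
  exact ⟨⟨hs.1, hs.2.trans_le hT⟩, fun x _ => ⟨rfl, rfl⟩⟩

theorem ConfSol_shift {p : ℕ} {w f : ℝ → ℝ → ℝ} {T t₀ : ℝ} (h : ConfSol p w f T)
    (h0 : 0 ≤ t₀) : ConfSol p (fun s => w (s + t₀)) (fun s => f (s + t₀)) (T - t₀) := by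
  rw [confSol_iff] at h ⊢
  intro t ht
  have h1 := PtSol.shift t₀ (h (t + t₀) ⟨by linarith only [h0, ht, ht.1], by linarith only [ht, ht.2]⟩)
  refine h1.congr ht ?_
  filter_upwards [self_mem_nhdsWithin] with s hs
  exact ⟨⟨by linarith only [h0, hs, hs.1], by linarith only [hs, hs.2]⟩, fun x _ => ⟨rfl, rfl⟩⟩

theorem ConfSol_data {p : ℕ} {w f : ℝ → ℝ → ℝ} {T : ℝ} (h : ConfSol p w f T) {t : ℝ}
    (ht : t ∈ Ico 0 T) : ConfData (w t) (f t) := by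
  have hc : ContDiffOn ℝ ∞ (fun x : ℝ => ((t, x) : ℝ × ℝ)) (Icc (-1) 1) :=
    (contDiff_const.prodMk contDiff_id).contDiffOn
  refine ⟨?_, ?_, h.even_w t ht, h.even_f t ht⟩
  · exact h.smooth_w.comp hc (fun x hx => ⟨ht, hx⟩)
  · exact h.smooth_f.comp hc (fun x hx => ⟨ht, hx⟩)

/-- gluing of a coherent family -/
theorem glue {p : ℕ} (hL2 : L2Statement) (hp : 2 ≤ p) {w₀ f₀ : ℝ → ℝ} {A : Set ℝ}
    (hA : ∀ T ∈ A, 0 < T ∧ ∃ w f : ℝ → ℝ → ℝ, ConfSol p w f T ∧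
      ∀ x ∈ Icc (-1 : ℝ) 1, w 0 x = w₀ x ∧ f 0 x = f₀ x)
    (hne : A.Nonempty) (hbd : BddAbove A) :
    ∃ w f : ℝ → ℝ → ℝ, ConfSol p w f (sSup A) ∧
      ∀ x ∈ Icc (-1 : ℝ) 1, w 0 x = w₀ x ∧ f 0 x = f₀ x := by
  classical
  choose hpos W F hsol hini using hA
  -- for t < sSup A choose T ∈ A with t < T
  have hex : ∀ t : ℝ, t < sSup A → ∃ T ∈ A, t < T := fun t ht => exists_lt_of_lt_csSup hne ht
  choose! τ hτA hτ using hex
  have huniq : ∀ (T₁ : ℝ) (h₁ : T₁ ∈ A) (T₂ : ℝ) (h₂ : T₂ ∈ A) (t : ℝ), 0 ≤ t → t < T₁ → t < T₂ →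
      ∀ x ∈ Icc (-1 : ℝ) 1, W T₁ h₁ t x = W T₂ h₂ t x ∧ F T₁ h₁ t x = F T₂ h₂ t x := by
    intro T₁ h₁ T₂ h₂ t ht0 ht1 ht2 x hx
    have hm : 0 < min T₁ T₂ := lt_min (hpos _ h₁) (hpos _ h₂)
    exact hL2 p hp (min T₁ T₂) hm _ _ _ _ (ConfSol_restrict (hsol _ h₁) (min_le_left _ _))
      (ConfSol_restrict (hsol _ h₂) (min_le_right _ _))
      (fun x hx => ⟨((hini _ h₁ x hx).1).trans ((hini _ h₂ x hx).1).symm,
        ((hini _ h₁ x hx).2).trans ((hini _ h₂ x hx).2).symm⟩) t ⟨ht0, lt_min ht1 ht2⟩ x hx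
  set w : ℝ → ℝ → ℝ := fun t => if h : t < sSup A then W (τ t) (hτA t h) t else 0 with hw
  set f : ℝ → ℝ → ℝ := fun t => if h : t < sSup A then F (τ t) (hτA t h) t else 0 with hf
  have hwf : ∀ (T : ℝ) (hT : T ∈ A) (t : ℝ), 0 ≤ t → t < T → ∀ x ∈ Icc (-1 : ℝ) 1,
      w t x = W T hT t x ∧ f t x = F T hT t x := by
    intro T hT t ht0 ht x hx
    have hts : t < sSup A := ht.trans_le (le_csSup hbd hT)
    have := huniq (τ t) (hτA t hts) T hT t ht0 (hτ t hts) ht x hx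
    rw [hw, hf]; simp only
    rw [dif_pos hts, dif_pos hts]; exact this
  obtain ⟨T₀, hT₀⟩ := hne
  refine ⟨w, f, ?_, fun x hx => ?_⟩
  · rw [confSol_iff]
    intro t ht
    have hTA := hτA t ht.2
    have htT := hτ t ht.2
    have h1 := (confSol_iff.1 (hsol _ hTA)) t ⟨ht.1, htT⟩
    refine h1.congr ht ?_
    have h2 : ∀ᶠ s in 𝓝[Ico 0 (sSup A)] t, s < τ t := mem_nhdsWithin_of_mem_nhds (Iio_mem_nhds htT)
    filter_upwards [h2, self_mem_nhdsWithin] with s hs hs'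
    exact ⟨⟨hs'.1, hs⟩, fun x hx => hwf _ hTA s hs'.1 hs x hx⟩
  · have h1 := hwf T₀ hT₀ 0 le_rfl (hpos _ hT₀) x hx
    rw [h1.1, h1.2]
    exact hini _ hT₀ x hx

theorem H1 : H1Stmt := by
  intro hLoc hL2 hApr p hp w₀ f₀ hD
  classical
  set A : Set ℝ := {T | T ∈ Ioc (0 : ℝ) 1 ∧ ∃ w f : ℝ → ℝ → ℝ, ConfSol p w f T ∧
      ∀ x ∈ Icc (-1 : ℝ) 1, w 0 x = w₀ x ∧ f 0 x = f₀ x} with hA
  have hne : A.Nonempty := by
    obtain ⟨K1, _, hK1⟩ := Sm.exists_Bd hD.smooth_w 2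
    obtain ⟨K2, _, hK2⟩ := Sm.exists_Bd hD.smooth_f 2
    obtain ⟨T₀, hT₀, h⟩ := hLoc p hp (max K1 K2)
    obtain ⟨w, f, h1, h2⟩ := h w₀ f₀ hD (hK1.mono (le_max_left _ _)) (hK2.mono (le_max_right _ _))
    exact ⟨T₀, hT₀, w, f, h1, h2⟩
  have hbd : BddAbove A := ⟨1, fun T hT => hT.1.2⟩
  obtain ⟨w, f, hsol, hini⟩ := glue hL2 hp (fun T hT => ⟨hT.1.1, hT.2⟩) hne hbd
  set T := sSup A with hT
  have hT1 : T ≤ 1 := csSup_le hne (fun T hT => hT.1.2)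
  have hT0 : 0 < T := by
    obtain ⟨T', hT'⟩ := hne
    exact hT'.1.1.trans_le (le_csSup hbd hT')
  refine ⟨T, ⟨hT0, hT1⟩, w, f, hsol, hini, ?_⟩
  rcases eq_or_lt_of_le hT1 with h1 | h1
  · exact Or.inl h1
  right
  by_contra hcon
  push Not at hcon
  obtain ⟨K, hK⟩ := hcon
  have hapr := hApr p hp T hT0 w f hsol K hK
  choose C hC using hapr
  set K2 : ℝ := max (C 0) (max (C 1) (C 2)) with hK2
  have hbd2 : ∀ t ∈ Ico 0 T, Bd 2 K2 (w t) ∧ Bd 2 K2 (f t) := by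
    intro t ht
    constructor
    · intro i hi x hx
      interval_cases i
      · exact (hC 0 t ht x hx).1.trans (le_max_left _ _)
      · exact (hC 1 t ht x hx).1.trans ((le_max_left _ _).trans (le_max_right _ _))
      · exact (hC 2 t ht x hx).1.trans ((le_max_right _ _).trans (le_max_right _ _))
    · intro i hi x hx
      interval_cases i
      · exact (hC 0 t ht x hx).2.trans (le_max_left _ _)
      · exact (hC 1 t ht x hx).2.trans ((le_max_left _ _).trans (le_max_right _ _))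
      · exact (hC 2 t ht x hx).2.trans ((le_max_right _ _).trans (le_max_right _ _))
  obtain ⟨T₀, hT₀, hloc⟩ := hLoc p hp K2
  set t₀ : ℝ := max 0 (T - T₀ / 2) with ht₀
  have ht₀0 : 0 ≤ t₀ := le_max_left _ _
  have ht₀T : t₀ < T := max_lt hT0 (by linarith only [hT₀, hT₀.1])
  have ht₀T' : T < t₀ + T₀ := by
    have : T - T₀ / 2 ≤ t₀ := le_max_right _ _
    linarith only [ht₀T, this, hT₀.1]
  obtain ⟨w', f', hsol', hini'⟩ := hloc (w t₀) (f t₀) (ConfSol_data hsol ⟨ht₀0, ht₀T⟩)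
    (hbd2 t₀ ⟨ht₀0, ht₀T⟩).1 (hbd2 t₀ ⟨ht₀0, ht₀T⟩).2
  -- agreement on [t₀, T)
  have hagree : ∀ t ∈ Ico t₀ T, ∀ x ∈ Icc (-1 : ℝ) 1, w t x = w' (t - t₀) x ∧
      f t x = f' (t - t₀) x := by
    intro t ht x hx
    have h2 := hL2 p hp (T - t₀) (by linarith only [ht₀T]) _ _ _ _ (ConfSol_shift hsol ht₀0)
      (ConfSol_restrict hsol' (T' := T - t₀) (by linarith only [ht₀T'])) (fun x hx => by
        have := hini' x hx
        simp only [zero_add]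
        exact ⟨this.1.symm, this.2.symm⟩) (t - t₀) ⟨by linarith only [ht, ht.1], by linarith only [ht, ht.2]⟩ x hx
    simpa using h2
  set T' : ℝ := min 1 (t₀ + T₀) with hT'
  have hTT' : T < T' := lt_min h1 ht₀T'
  set v : ℝ → ℝ → ℝ := fun t => if t < T then w t else w' (t - t₀) with hv
  set g : ℝ → ℝ → ℝ := fun t => if t < T then f t else f' (t - t₀) with hg
  have hvw : ∀ t < T, v t = w t ∧ g t = f t := by
    intro t ht
    rw [hv, hg]; simp only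
    rw [if_pos ht, if_pos ht]; exact ⟨rfl, rfl⟩
  have hvw' : ∀ t, t₀ ≤ t → ∀ x ∈ Icc (-1 : ℝ) 1, v t x = w' (t - t₀) x ∧ g t x = f' (t - t₀) x := by
    intro t ht x hx
    by_cases h : t < T
    · rw [(hvw t h).1, (hvw t h).2]; exact hagree t ⟨ht, h⟩ x hx
    · rw [hv, hg]; simp only
      rw [if_neg h, if_neg h]; exact ⟨rfl, rfl⟩
  have hmem : T' ∈ A := by
    refine ⟨⟨hT0.trans hTT', min_le_left _ _⟩, v, g, ?_, fun x hx => ?_⟩
    · rw [confSol_iff]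
      intro t ht
      rcases lt_or_ge t T with h | h
      · have h2 := (confSol_iff.1 hsol) t ⟨ht.1, h⟩
        refine h2.congr ht ?_
        have h3 : ∀ᶠ s in 𝓝[Ico 0 T'] t, s < T := mem_nhdsWithin_of_mem_nhds (Iio_mem_nhds h)
        filter_upwards [h3, self_mem_nhdsWithin] with s hs hs'
        refine ⟨⟨hs'.1, hs⟩, fun x _ => ?_⟩
        rw [(hvw s hs).1, (hvw s hs).2]; exact ⟨rfl, rfl⟩
      · have h2 : PtSol p w' f' (Ico 0 T₀) (t + -t₀) :=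
          (confSol_iff.1 hsol') _ ⟨by linarith only [ht₀T, h], by
            have := ht.2.trans_le (min_le_right _ _); linarith only [this]⟩
        have h3 := PtSol.shift (-t₀) h2
        refine h3.congr ht ?_
        have h4 : ∀ᶠ s in 𝓝[Ico 0 T'] t, t₀ < s :=
          mem_nhdsWithin_of_mem_nhds (Ioi_mem_nhds (ht₀T.trans_le h))
        filter_upwards [h4, self_mem_nhdsWithin] with s hs hs'
        refine ⟨⟨by linarith only [hs], by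
          have := hs'.2.trans_le (min_le_right _ _); linarith only [this]⟩, fun x hx => ?_⟩
        exact hvw' s hs.le x hx
    · rw [(hvw 0 hT0).1, (hvw 0 hT0).2]; exact hini x hx
  exact absurd (le_csSup hbd hmem) (not_le.2 hTT')

end Vale.Agent.P244.LW
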