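import Vale.Agent.P244.L.Base

/-!
# P244-L : exact statements of all blocks (each block is a `def ... : Prop`)

`I = Icc (-1) 1`; every prover proves `theorem X : XStmt` in its own file.
-/

open Set Filter Topology
open scoped ContDiff

namespace Vale.Agent.P244.LW
open Vale.Agent.P244.ST

/-! ## B : elliptic solver -/

/-- B1: polynomial solvability of `μ Q - λ L_d Q = P`. -/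
def B1Stmt : Prop := ∀ d μ lam : ℝ, 0 < d → 0 < μ → 0 ≤ lam → ∀ P : Polynomial ℝ,
  ∃ Q : Polynomial ℝ, Polynomial.C μ * Q - Polynomial.C lam *
    ((1 - Polynomial.X ^ 2) * Q.derivative.derivative
      - Polynomial.C d * Polynomial.X * Q.derivative) = P

/-- B2: polynomials are dense in every `C^j[-1,1]`. -/
def B2Stmt : Prop := ∀ g : ℝ → ℝ, Sm g → ∀ (j : ℕ) (ε : ℝ), 0 < ε → ∃ P : Polynomial ℝ,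
  ∀ i ≤ j, ∀ x ∈ Icc (-1 : ℝ) 1, |dn i g x - dn i (fun y => P.eval y) x| ≤ ε

/-- B3: the resolvent with constant coefficients. -/
def B3Stmt : Prop := ∀ d μ lam : ℝ, 0 < d → 0 < μ → 0 ≤ lam → ∀ g : ℝ → ℝ, Sm g →
  ∃ u : ℝ → ℝ, Sm u ∧ (∀ x ∈ Icc (-1 : ℝ) 1, μ * u x - lam * Ld d u x = g x) ∧
    ∀ (j : ℕ) (K : ℝ), (∀ x ∈ Icc (-1 : ℝ) 1, |dn j g x| ≤ K) →
      ∀ x ∈ Icc (-1 : ℝ) 1, |dn j u x| ≤ K / μ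

/-- B4: variable zeroth order coefficient (contraction `u ↦ S((μ-β)u+g)`, `μ = max β`). -/
def B4Stmt : Prop := ∀ d lam : ℝ, 0 < d → 0 ≤ lam → ∀ β g : ℝ → ℝ, Sm β → Sm g →
  (∀ x ∈ Icc (-1 : ℝ) 1, 0 < β x) →
  ∃ u : ℝ → ℝ, Sm u ∧ ∀ x ∈ Icc (-1 : ℝ) 1, β x * u x - lam * Ld d u x = g x

/-- B5: full linear operator (conjugation `u = σ Y`, `σ' = σ J/(2a)`). -/
def B5Stmt : Prop := ∀ d : ℝ, 0 < d → ∀ K : ℝ, 0 < K → ∃ h₀ : ℝ, 0 < h₀ ∧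
  ∀ a J : ℝ → ℝ, Sm a → Sm J → (∀ x ∈ Icc (-1 : ℝ) 1, 1 / K ≤ a x) → Bd 1 K a → Bd 1 K J →
  ∀ h ∈ Ioo 0 h₀, ∀ g : ℝ → ℝ, Sm g → ∃ u : ℝ → ℝ, Sm u ∧
    ∀ x ∈ Icc (-1 : ℝ) 1,
      u x - h * (a x * Ld d u x - (1 - x ^ 2) * J x * dx u x) = g x

/-! ## C : the implicit scheme -/

/-- One implicit Euler step `(w,f) → (W,F)` of size `h`. -/
structure Step (p : ℕ) (h : ℝ) (w f W F : ℝ → ℝ) : Prop where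
  sW : Sm W
  sF : Sm F
  eW : ∀ x ∈ Icc (-1 : ℝ) 1,
    W x - h * (Real.exp (-2 * w x) * Ld ((p : ℝ) + 1) W x
        - (1 - x ^ 2) * Jf p w f x * dx W x)
      = w x + h * (-(p : ℝ) * Real.exp (-2 * w x) + x * Jf p w f x)
  eF : ∀ x ∈ Icc (-1 : ℝ) 1,
    F x - h * (Real.exp (-2 * w x) * Ld ((p : ℝ) + 1) F x
        - (1 - x ^ 2) * Jf p w f x * dx F x)
      = f x - h * (((p : ℝ) - 1) * Real.exp (-2 * f x))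

/-- C1: solvability of the step (even solution), from B5. -/
def C1Stmt : Prop := ∀ p : ℕ, 2 ≤ p → ∀ K : ℝ, ∃ h₀ : ℝ, 0 < h₀ ∧
  ∀ w f : ℝ → ℝ, ConfData w f → Bd 2 K w → Bd 2 K f → ∀ h ∈ Ioo 0 h₀,
    ∃ W F : ℝ → ℝ, Step p h w f W F ∧ ConfData W F

/-- C2: second order estimate (any bound `M` improves). -/
def C2Stmt : Prop := ∀ p : ℕ, 2 ≤ p → ∀ K : ℝ, ∃ C : ℝ, 0 ≤ C ∧
  ∀ h ∈ Ioc (0 : ℝ) 1, ∀ w f W F : ℝ → ℝ, Sm w → Sm f → Bd 2 K w → Bd 2 K f →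
    Step p h w f W F → ∀ N M : ℝ, Bd 2 N w → Bd 2 N f → Bd 2 M W → Bd 2 M F →
      Bd 2 (N + h * C * (1 + N + M)) W ∧ Bd 2 (N + h * C * (1 + N + M)) F

/-- C3: estimates of order `j ≥ 3` are linear once the order `j-1` is bounded. -/
def C3Stmt : Prop := ∀ p : ℕ, 2 ≤ p → ∀ j : ℕ, 3 ≤ j → ∀ K : ℝ, ∃ C : ℝ, 0 ≤ C ∧
  ∀ h ∈ Ioc (0 : ℝ) 1, ∀ w f W F : ℝ → ℝ, Sm w → Sm f →
    Bd (j - 1) K w → Bd (j - 1) K f → Bd (j - 1) K W → Bd (j - 1) K F →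
    Step p h w f W F → ∀ N M : ℝ, Bd j N w → Bd j N f → Bd j M W → Bd j M F →
      Bd j (N + h * C * (1 + N + M)) W ∧ Bd j (N + h * C * (1 + N + M)) F

/-- C4: output of the scheme (uniform bounds of all orders on a time interval that depends
only on the `C²` bound of the data). -/
def C4Stmt : Prop := ∀ p : ℕ, 2 ≤ p → ∀ K₀ : ℝ, ∃ T₀ ∈ Ioc (0 : ℝ) 1,
  ∀ w₀ f₀ : ℝ → ℝ, ConfData w₀ f₀ → Bd 2 K₀ w₀ → Bd 2 K₀ f₀ →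
  ∃ (N : ℕ → ℕ) (w f : ℕ → ℕ → ℝ → ℝ) (K : ℕ → ℝ), Tendsto N atTop atTop ∧
    ∀ m, 0 < N m ∧ w m 0 = w₀ ∧ f m 0 = f₀ ∧
      (∀ n ≤ N m, ConfData (w m n) (f m n) ∧
        ∀ j, Bd j (K j) (w m n) ∧ Bd j (K j) (f m n)) ∧
      ∀ n < N m, Step p (T₀ / (N m : ℝ)) (w m n) (f m n) (w m (n + 1)) (f m (n + 1))

/-! ## D : the limit `h → 0` -/

def DStmt : Prop := ∀ p : ℕ, 2 ≤ p → ∀ K₀ : ℝ, ∃ T₀ ∈ Ioc (0 : ℝ) 1,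
  ∀ w₀ f₀ : ℝ → ℝ, ConfData w₀ f₀ → Bd 2 K₀ w₀ → Bd 2 K₀ f₀ →
  ∃ w f : ℝ → ℝ → ℝ, (∀ t ∈ Icc 0 T₀, ConfData (w t) (f t)) ∧
    (∀ x ∈ Icc (-1 : ℝ) 1, w 0 x = w₀ x ∧ f 0 x = f₀ x) ∧
    (∀ j, ∃ C : ℝ, ∀ s ∈ Icc 0 T₀, ∀ t ∈ Icc 0 T₀, ∀ x ∈ Icc (-1 : ℝ) 1,
      |dn j (w t) x - dn j (w s) x| ≤ C * |t - s| ∧
      |dn j (f t) x - dn j (f s) x| ≤ C * |t - s|) ∧
    (∀ t ∈ Icc 0 T₀, ∀ x ∈ Icc (-1 : ℝ) 1,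
      HasDerivWithinAt (fun s => w s x) (rhsW p (w t) (f t) x) (Icc 0 T₀) t) ∧
    (∀ t ∈ Icc 0 T₀, ∀ x ∈ Icc (-1 : ℝ) 1,
      HasDerivWithinAt (fun s => f s x) (rhsF p (w t) (f t) x) (Icc 0 T₀) t)

/-! ## E : joint smoothness -/

/-- E1: all `x`-derivatives jointly continuous + the equations ⇒ jointly smooth. -/
def E1Stmt : Prop := ∀ (p : ℕ) (T : ℝ), 0 < T → ∀ w f : ℝ → ℝ → ℝ,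
  (∀ t ∈ Ico 0 T, ConfData (w t) (f t)) →
  (∀ j, ContinuousOn (fun z : ℝ × ℝ => dn j (w z.1) z.2) (Ico 0 T ×ˢ Icc (-1) 1)) →
  (∀ j, ContinuousOn (fun z : ℝ × ℝ => dn j (f z.1) z.2) (Ico 0 T ×ˢ Icc (-1) 1)) →
  (∀ t ∈ Ico 0 T, ∀ x ∈ Icc (-1 : ℝ) 1,
    HasDerivWithinAt (fun s => w s x) (rhsW p (w t) (f t) x) (Ico 0 T) t) →
  (∀ t ∈ Ico 0 T, ∀ x ∈ Icc (-1 : ℝ) 1,
    HasDerivWithinAt (fun s => f s x) (rhsF p (w t) (f t) x) (Ico 0 T) t) →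
  ConfSol p w f T

/-- E2: `x`-derivative of a jointly smooth function is jointly smooth. -/
def E2Stmt : Prop := ∀ (T : ℝ), 0 < T → ∀ u : ℝ → ℝ → ℝ,
  ContDiffOn ℝ ∞ (fun z : ℝ × ℝ => u z.1 z.2) (Ico 0 T ×ˢ Icc (-1) 1) →
  (∀ t ∈ Ico 0 T, Sm (u t)) ∧
  ContDiffOn ℝ ∞ (fun z : ℝ × ℝ => dx (u z.1) z.2) (Ico 0 T ×ˢ Icc (-1) 1)

/-- E3: time derivative of the `x`-derivatives. -/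
def E3Stmt : Prop := ∀ (T : ℝ), 0 < T → ∀ u v : ℝ → ℝ → ℝ,
  ContDiffOn ℝ ∞ (fun z : ℝ × ℝ => u z.1 z.2) (Ico 0 T ×ˢ Icc (-1) 1) →
  (∀ t ∈ Ico 0 T, ∀ x ∈ Icc (-1 : ℝ) 1,
    HasDerivWithinAt (fun s => u s x) (v t x) (Ico 0 T) t) →
  ContDiffOn ℝ ∞ (fun z : ℝ × ℝ => v z.1 z.2) (Ico 0 T ×ˢ Icc (-1) 1) ∧
  ∀ j, ∀ t ∈ Ico 0 T, ∀ x ∈ Icc (-1 : ℝ) 1,
    HasDerivWithinAt (fun s => dn j (u s) x) (dn j (v t) x) (Ico 0 T) t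

/-! ## F : maximum principle in time, difference estimate -/

/-- F1: maximum principle (finite family). -/
def F1Stmt : Prop := ∀ (ι : Type) [Fintype ι] [Nonempty ι] (Φ Φ' : ι → ℝ → ℝ → ℝ)
  (T m C C' : ℝ), 0 ≤ T → 0 ≤ m → 0 ≤ C → 0 ≤ C' →
  (∀ i, ContinuousOn (fun z : ℝ × ℝ => Φ i z.1 z.2) (Icc 0 T ×ˢ Icc (-1) 1)) →
  (∀ i, ∀ t ∈ Icc 0 T, ∀ x ∈ Icc (-1 : ℝ) 1,
    HasDerivWithinAt (fun s => Φ i s x) (Φ' i t x) (Icc 0 T) t) →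
  (∀ i, ∀ x ∈ Icc (-1 : ℝ) 1, Φ i 0 x ≤ m) →
  (∀ t ∈ Ioc 0 T, ∀ i, ∀ x ∈ Icc (-1 : ℝ) 1,
    (∀ k, ∀ y ∈ Icc (-1 : ℝ) 1, Φ k t y ≤ Φ i t x) → 0 ≤ Φ i t x →
      Φ' i t x ≤ C * Φ i t x + C') →
  ∀ t ∈ Icc 0 T, ∀ i, ∀ x ∈ Icc (-1 : ℝ) 1, Φ i t x ≤ (m + C' * t) * Real.exp (C * t)

/-- F2: difference estimate. -/
def F2Stmt : Prop := ∀ p : ℕ, 2 ≤ p → ∀ K : ℝ, ∃ C : ℝ, 0 ≤ C ∧
  ∀ T > 0, ∀ w f w' f' : ℝ → ℝ → ℝ, ConfSol p w f T → ConfSol p w' f' T →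
  ∀ T₁ ∈ Ico 0 T,
    (∀ t ∈ Icc 0 T₁, Bd 2 K (w t) ∧ Bd 2 K (f t) ∧ Bd 2 K (w' t) ∧ Bd 2 K (f' t)) →
    ∀ m : ℝ, (∀ x ∈ Icc (-1 : ℝ) 1, |w 0 x - w' 0 x| ≤ m ∧ |f 0 x - f' 0 x| ≤ m) →
    ∀ t ∈ Icc 0 T₁, ∀ x ∈ Icc (-1 : ℝ) 1,
      |w t x - w' t x| ≤ m * Real.exp (C * t) ∧ |f t x - f' t x| ≤ m * Real.exp (C * t)

/-! ## G : `C¹` bound ⇒ `C²` bound for exact solutions -/

/-- G1 (Bernstein): scale invariant bound of `(1-x²) D²`. -/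
def G1Stmt : Prop := ∀ p : ℕ, 2 ≤ p → ∀ K : ℝ, ∃ C : ℝ,
  ∀ T > 0, ∀ w f : ℝ → ℝ → ℝ, ConfSol p w f T → ∀ T₁ ∈ Ico 0 T,
    (∀ t ∈ Icc 0 T₁, Bd 1 K (w t) ∧ Bd 1 K (f t)) → Bd 2 K (w 0) → Bd 2 K (f 0) →
    ∀ t ∈ Icc 0 T₁, ∀ x ∈ Icc (-1 : ℝ) 1,
      (1 - x ^ 2) * |dx (dx (w t)) x| ≤ C ∧ (1 - x ^ 2) * |dx (dx (f t)) x| ≤ C

/-- G2: then `D²` is bounded (linear). -/
def G2Stmt : Prop := ∀ p : ℕ, 2 ≤ p → ∀ K : ℝ, ∃ C : ℝ,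
  ∀ T > 0, ∀ w f : ℝ → ℝ → ℝ, ConfSol p w f T → ∀ T₁ ∈ Ico 0 T, T₁ ≤ 1 →
    (∀ t ∈ Icc 0 T₁, Bd 1 K (w t) ∧ Bd 1 K (f t)) → Bd 2 K (w 0) → Bd 2 K (f 0) →
    (∀ t ∈ Icc 0 T₁, ∀ x ∈ Icc (-1 : ℝ) 1,
      (1 - x ^ 2) * |dx (dx (w t)) x| ≤ K ∧ (1 - x ^ 2) * |dx (dx (f t)) x| ≤ K) →
    ∀ t ∈ Icc 0 T₁, Bd 2 C (w t) ∧ Bd 2 C (f t)

/-- G : a priori estimate of every order, with constants depending only on `p, j, K`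
(`K` bounds the `C¹` size on `[0,T₁]` and the `C^j` size at `t = 0`). -/
def GStmt : Prop := ∀ p : ℕ, 2 ≤ p → ∀ K : ℝ, ∀ j : ℕ, ∃ C : ℝ,
  ∀ T > 0, ∀ w f : ℝ → ℝ → ℝ, ConfSol p w f T → ∀ T₁ ∈ Ico 0 T, T₁ ≤ 1 →
    (∀ t ∈ Icc 0 T₁, Bd 1 K (w t) ∧ Bd 1 K (f t)) → Bd j K (w 0) → Bd j K (f 0) →
    ∀ t ∈ Icc 0 T₁, Bd j C (w t) ∧ Bd j C (f t)

/-- G' : a priori estimate (one solution), criterion in `C¹`. -/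
def AprStmt : Prop := ∀ p : ℕ, 2 ≤ p → ∀ T > 0, ∀ w f : ℝ → ℝ → ℝ, ConfSol p w f T → ∀ K : ℝ,
  (∀ t ∈ Ico 0 T, ∀ x ∈ Icc (-1 : ℝ) 1, size1 (w t) (f t) x ≤ K) → ∀ j : ℕ, ∃ C : ℝ,
  ∀ t ∈ Ico 0 T, ∀ x ∈ Icc (-1 : ℝ) 1, |dx^[j] (w t) x| ≤ C ∧ |dx^[j] (f t) x| ≤ C

/-! ## H : assembly -/

/-- Local existence (from D and E1). -/
def LocStmt : Prop := ∀ p : ℕ, 2 ≤ p → ∀ K₀ : ℝ, ∃ T₀ ∈ Ioc (0 : ℝ) 1,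
  ∀ w₀ f₀ : ℝ → ℝ, ConfData w₀ f₀ → Bd 2 K₀ w₀ → Bd 2 K₀ f₀ →
  ∃ w f : ℝ → ℝ → ℝ, ConfSol p w f T₀ ∧ ∀ x ∈ Icc (-1 : ℝ) 1, w 0 x = w₀ x ∧ f 0 x = f₀ x

/-- H0: uniform bounds on compact time intervals (from E2). -/
def H0Stmt : Prop := ∀ (p : ℕ) (T : ℝ) (w f : ℝ → ℝ → ℝ), 0 < T → ConfSol p w f T →
  ∀ T₁ ∈ Ico 0 T, ∀ j : ℕ, ∃ K : ℝ, ∀ t ∈ Icc 0 T₁, Bd j K (w t) ∧ Bd j K (f t)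

/-- H1: `Loc + L2 + Apr ⇒ L1`. -/
def H1Stmt : Prop := LocStmt → L2Statement → AprStmt → L1Statement

end Vale.Agent.P244.LW
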